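import Crest.Agent.NLib.Ell.Shapes

-- ▼ part NLib/Ell/CKA
section

/-!
# Calculus of the quantitative Hölder classes `CKA` (helper8, task T6c, part 1)

`CKA.{ho,diff,pd,mono,mono',subset,congr,pred,of_le,const,zero,add,neg,sub,clm,smul,sum,sum_le,
bilin,mul,smulF,prod,pi,apply,fderiv,of_fderiv,contDiffOn,affine,translate,dilate}`.
-/

set_option autoImplicit false
open Metric Set Filter Topology
open scoped ContDiff

namespace Crest.Agent.NLib.Ell

open Crest.Agent.R273.SchA_152

noncomputable section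

/-- coordinate vectors -/
abbrev ei {n : ℕ} (i : Fin n) : EE n := EuclideanSpace.single i (1 : ℝ)

theorem norm_ei {n : ℕ} (i : Fin n) : ‖(ei i : EE n)‖ = 1 := by simp

/-! ### `HO` -/

section ho

variable {X F G H : Type*} [NormedAddCommGroup X] [NormedAddCommGroup F] [NormedAddCommGroup G]
  [NormedAddCommGroup H] {a M N : ℝ} {s : Set X}

theorem ho_empty (f : X → F) : HO a M (∅ : Set X) f :=
  ⟨fun _ h => h.elim, fun _ h => h.elim⟩

theorem ho_mono' {f : X → F} (h : HO a M s f) (hMN : 0 ≤ M → M ≤ N) : HO a N s f := by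
  rcases s.eq_empty_or_nonempty with rfl | ⟨x, hx⟩
  · exact ho_empty f
  · exact h.mono (hMN (h.nonneg hx))

theorem ho_const (c : F) : HO a ‖c‖ s (fun _ : X => c) :=
  ⟨fun _ _ => le_rfl, fun x _ y _ => by
    rw [sub_self, norm_zero]
    exact mul_nonneg (norm_nonneg _) (Real.rpow_nonneg (norm_nonneg _) _)⟩

/-- maps which are `L`-Lipschitz and fix `0` -/
theorem ho_map {f : X → F} (h : HO a M s f) {T : F → G} {L : ℝ} (hL : 0 ≤ L)
    (h0 : ∀ u, ‖T u‖ ≤ L * ‖u‖) (h1 : ∀ u v, ‖T u - T v‖ ≤ L * ‖u - v‖) :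
    HO a (L * M) s (fun x => T (f x)) :=
  ⟨fun x hx => (h0 _).trans (mul_le_mul_of_nonneg_left (h.bdd x hx) hL), fun x hx y hy => by
    rw [mul_assoc]
    exact (h1 _ _).trans (mul_le_mul_of_nonneg_left (h.hol x hx y hy) hL)⟩

theorem ho_continuousOn {f : X → F} (h : HO a M s f) (ha : 0 < a) : ContinuousOn f s := by
  intro x hx
  rw [ContinuousWithinAt, tendsto_iff_norm_sub_tendsto_zero]
  have h1 : Tendsto (fun y => M * ‖y - x‖ ^ a) (𝓝[s] x) (𝓝 0) := by
    have h2 : ContinuousAt (fun y : X => M * ‖y - x‖ ^ a) x :=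
      continuousAt_const.mul (((continuousAt_id.sub continuousAt_const).norm).rpow_const
        (Or.inr ha.le))
    have h3 := h2.tendsto
    simp only [sub_self, norm_zero, Real.zero_rpow ha.ne', mul_zero] at h3
    exact h3.mono_left nhdsWithin_le_nhds
  refine squeeze_zero' (Eventually.of_forall fun _ => norm_nonneg _) ?_ h1
  filter_upwards [self_mem_nhdsWithin] with y hy using h.hol y hy x hx

variable [NormedSpace ℝ F] [NormedSpace ℝ G] [NormedSpace ℝ H]

theorem ho_clm {f : X → F} (h : HO a M s f) (T : F →L[ℝ] G) {L : ℝ} (hL : ‖T‖ ≤ L) :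
    HO a (L * M) s (fun x => T (f x)) :=
  ho_map h ((norm_nonneg _).trans hL)
    (fun u => (T.le_opNorm u).trans (mul_le_mul_of_nonneg_right hL (norm_nonneg _)))
    (fun u v => by
      rw [← map_sub]
      exact (T.le_opNorm _).trans (mul_le_mul_of_nonneg_right hL (norm_nonneg _)))

theorem ho_bilin {f : X → F} {g : X → G} (B : F →L[ℝ] G →L[ℝ] H) {L : ℝ} (hL : ‖B‖ ≤ L)
    (hf : HO a M s f) (hg : HO a N s g) :
    HO a (2 * (L * (M * N))) s (fun x => B (f x) (g x)) := by
  have hL0 : 0 ≤ L := (norm_nonneg B).trans hL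
  have key : ∀ u v p q, ‖u‖ ≤ p → ‖v‖ ≤ q → ‖B u v‖ ≤ L * (p * q) := fun u v p q hu hv => by
    have hp : 0 ≤ p := (norm_nonneg _).trans hu
    refine (B.le_opNorm₂ u v).trans ?_
    rw [mul_assoc]
    exact mul_le_mul hL (mul_le_mul hu hv (norm_nonneg _) hp) (by positivity) hL0
  refine ⟨fun x hx => ?_, fun x hx y hy => ?_⟩
  · have h1 := key _ _ _ _ (hf.bdd x hx) (hg.bdd x hx)
    have h2 := (norm_nonneg _).trans h1
    linarith
  · have e : B (f x) (g x) - B (f y) (g y) = B (f x - f y) (g x) + B (f y) (g x - g y) := by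
      simp only [map_sub, _root_.sub_apply]; abel
    rw [e]
    refine (norm_add_le _ _).trans ?_
    have h1 := key _ _ _ _ (hf.hol x hx y hy) (hg.bdd x hx)
    have h2 := key _ _ _ _ (hf.bdd y hy) (hg.hol x hx y hy)
    linarith

end ho

/-! ### `CKA` -/

variable {n : ℕ} {F G H : Type} [NormedAddCommGroup F] [NormedSpace ℝ F] [NormedAddCommGroup G]
  [NormedSpace ℝ G] [NormedAddCommGroup H] [NormedSpace ℝ H] {a M N : ℝ} {U V : Set (EE n)}
  {k : ℕ} {f g : EE n → F}

theorem cka_zero : CKA a U 0 M f ↔ HO a M U f := Iff.rfl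


namespace CKA

theorem ho (h : CKA a U k M f) : HO a M U f := by
  cases k with
  | zero => exact h
  | succ k => exact h.1

theorem diff (h : CKA a U (k + 1) M f) : DifferentiableOn ℝ f U := h.2.1

theorem diffAt (h : CKA a U (k + 1) M f) (hU : IsOpen U) {x : EE n} (hx : x ∈ U) :
    DifferentiableAt ℝ f x := h.diff.differentiableAt (hU.mem_nhds hx)

theorem pd (h : CKA a U (k + 1) M f) (i : Fin n) :
    CKA a U k M fun x => fderiv ℝ f x (ei i) := h.2.2 i

theorem bdd (h : CKA a U k M f) {x : EE n} (hx : x ∈ U) : ‖f x‖ ≤ M := h.ho.bdd x hx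

theorem nonneg (h : CKA a U k M f) {x : EE n} (hx : x ∈ U) : 0 ≤ M := h.ho.nonneg hx

theorem empty (f : EE n → F) : CKA a (∅ : Set (EE n)) k M f := by
  induction k generalizing f with
  | zero => exact ho_empty f
  | succ k ih => exact ⟨ho_empty f, differentiableOn_empty, fun i => ih _⟩

theorem mono (h : CKA a U k M f) (hMN : M ≤ N) : CKA a U k N f := by
  induction k generalizing f with
  | zero => exact HO.mono h hMN
  | succ k ih => exact ⟨h.1.mono hMN, h.2.1, fun i => ih (h.2.2 i)⟩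

/-- monotonicity, `0 ≤ M` may be assumed -/
theorem mono' (h : CKA a U k M f) (hMN : 0 ≤ M → M ≤ N) : CKA a U k N f := by
  rcases U.eq_empty_or_nonempty with rfl | ⟨x, hx⟩
  · exact empty f
  · exact h.mono (hMN (h.nonneg hx))

theorem subset (h : CKA a U k M f) (hV : V ⊆ U) : CKA a V k M f := by
  induction k generalizing f with
  | zero => exact HO.subset h hV
  | succ k ih => exact ⟨h.1.subset hV, h.2.1.mono hV, fun i => ih (h.2.2 i)⟩

theorem congr (h : CKA a U k M f) (hU : IsOpen U) (e : ∀ x ∈ U, g x = f x) : CKA a U k M g := by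
  induction k generalizing f g with
  | zero => exact HO.congr h e
  | succ k ih =>
    refine ⟨h.1.congr e, h.2.1.congr e, fun i => ih (h.2.2 i) fun x hx => ?_⟩
    have : g =ᶠ[𝓝 x] f := eventually_of_mem (hU.mem_nhds hx) e
    rw [this.fderiv_eq]

theorem pred (h : CKA a U (k + 1) M f) : CKA a U k M f := by
  induction k generalizing f with
  | zero => exact h.1
  | succ k ih => exact ⟨h.1, h.2.1, fun i => ih (h.2.2 i)⟩

theorem of_le (h : CKA a U k M f) {j : ℕ} (hj : j ≤ k) : CKA a U j M f := by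
  induction hj with
  | refl => exact h
  | step _ ih => exact ih h.pred

theorem const (c : F) : CKA a U k ‖c‖ fun _ : EE n => c := by
  induction k generalizing c with
  | zero => exact ho_const c
  | succ k ih =>
    refine ⟨ho_const c, differentiableOn_const c, fun i => ?_⟩
    have := (ih (0 : F)).mono (N := ‖c‖) (by simp)
    simpa using this

theorem zero : CKA a U k 0 fun _ : EE n => (0 : F) := by
  simpa using const (a := a) (U := U) (k := k) (0 : F)

theorem add (hU : IsOpen U) (hf : CKA a U k M f) (hg : CKA a U k N g) :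
    CKA a U k (M + N) fun x => f x + g x := by
  induction k generalizing f g with
  | zero => exact HO.add hf hg
  | succ k ih =>
    refine ⟨hf.1.add hg.1, hf.2.1.add hg.2.1, fun i => ?_⟩
    refine (ih (hf.2.2 i) (hg.2.2 i)).congr hU fun x hx => ?_
    rw [fderiv_fun_add (hf.diffAt hU hx) (hg.diffAt hU hx)]
    rfl

theorem clm (hU : IsOpen U) (h : CKA a U k M f) (T : F →L[ℝ] G) {L : ℝ} (hL : ‖T‖ ≤ L) :
    CKA a U k (L * M) fun x => T (f x) := by
  induction k generalizing f with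
  | zero => exact ho_clm h T hL
  | succ k ih =>
    refine ⟨ho_clm h.1 T hL, T.differentiable.comp_differentiableOn h.2.1, fun i => ?_⟩
    refine (ih (h.2.2 i)).congr hU fun x hx => ?_
    have h1 := (T.hasFDerivAt.comp x (h.diffAt hU hx).hasFDerivAt).fderiv
    have h2 : (fun x => T (f x)) = T ∘ f := rfl
    rw [h2, h1]
    rfl

/-- contractions -/
theorem clm1 (hU : IsOpen U) (h : CKA a U k M f) (T : F →L[ℝ] G) (hL : ‖T‖ ≤ 1) :
    CKA a U k M fun x => T (f x) := by
  simpa using h.clm hU T hL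

theorem smul (hU : IsOpen U) (h : CKA a U k M f) (c : ℝ) :
    CKA a U k (|c| * M) fun x => c • f x :=
  h.clm hU (c • ContinuousLinearMap.id ℝ F) (by
    rw [norm_smul, Real.norm_eq_abs]
    exact mul_le_of_le_one_right (abs_nonneg _) ContinuousLinearMap.norm_id_le)

theorem const_mul {f : EE n → ℝ} (hU : IsOpen U) (h : CKA a U k M f) (c : ℝ) :
    CKA a U k (|c| * M) fun x => c * f x := h.smul hU c

theorem neg (hU : IsOpen U) (h : CKA a U k M f) : CKA a U k M fun x => -f x := by
  simpa using h.smul hU (-1)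

theorem sub (hU : IsOpen U) (hf : CKA a U k M f) (hg : CKA a U k N g) :
    CKA a U k (M + N) fun x => f x - g x := by
  simpa [sub_eq_add_neg] using hf.add hU (hg.neg hU)

theorem sum (hU : IsOpen U) {ι : Type*} (s : Finset ι) {f : ι → EE n → F} {M : ι → ℝ}
    (h : ∀ i ∈ s, CKA a U k (M i) (f i)) :
    CKA a U k (∑ i ∈ s, M i) fun x => ∑ i ∈ s, f i x := by
  classical
  induction s using Finset.induction_on with
  | empty => simpa using zero
  | insert i s hi ih =>
    simp only [Finset.sum_insert hi]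
    exact (h i (Finset.mem_insert_self _ _)).add hU
      (ih fun j hj => h j (Finset.mem_insert_of_mem hj))

theorem sum_le (hU : IsOpen U) {ι : Type*} [Fintype ι] {f : ι → EE n → F}
    (h : ∀ i, CKA a U k M (f i)) :
    CKA a U k (Fintype.card ι * M) fun x => ∑ i, f i x := by
  simpa using sum hU Finset.univ (M := fun _ => M) fun i _ => h i

theorem bilin {g : EE n → G} (hU : IsOpen U) (B : F →L[ℝ] G →L[ℝ] H) {L : ℝ} (hL : ‖B‖ ≤ L)
    (hf : CKA a U k M f) (hg : CKA a U k N g) :
    CKA a U k (2 ^ (k + 1) * (L * (M * N))) fun x => B (f x) (g x) := by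
  induction k generalizing f g with
  | zero => simpa [cka_zero] using ho_bilin B hL hf hg
  | succ k ih =>
    refine ⟨ho_mono' (ho_bilin B hL hf.1 hg.1) fun h0 => ?_, fun x hx => ?_, fun i => ?_⟩
    · have h1 : (2 : ℝ) ≤ 2 ^ (k + 1 + 1) := le_self_pow₀ (by norm_num) (by omega)
      exact mul_le_mul_of_nonneg_right h1 (by linarith)
    · exact ((B.differentiableAt.comp x (hf.diffAt hU hx)).clm_apply
        (hg.diffAt hU hx)).differentiableWithinAt
    · have h1 := (ih (hf.2.2 i) hg.pred).add hU (ih hf.pred (hg.2.2 i))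
      refine (h1.congr hU fun x hx => ?_).mono (le_of_eq (by ring))
      have h2 := (B.hasFDerivAt_of_bilinear (hf.diffAt hU hx).hasFDerivAt
        (hg.diffAt hU hx).hasFDerivAt).fderiv
      rw [h2]
      simp [add_comm]

theorem mul {f g : EE n → ℝ} (hU : IsOpen U) (hf : CKA a U k M f) (hg : CKA a U k N g) :
    CKA a U k (2 ^ (k + 1) * (M * N)) fun x => f x * g x := by
  simpa using bilin hU (ContinuousLinearMap.mul ℝ ℝ) (L := 1)
    (ContinuousLinearMap.opNorm_mul_le ℝ ℝ) hf hg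

/-- scalar function times vector function -/
theorem smulF {c : EE n → ℝ} (hU : IsOpen U) (hc : CKA a U k N c) (hf : CKA a U k M f) :
    CKA a U k (2 ^ (k + 1) * (N * M)) fun x => c x • f x := by
  simpa using bilin hU (ContinuousLinearMap.lsmul ℝ ℝ : ℝ →L[ℝ] F →L[ℝ] F) (L := 1)
    (ContinuousLinearMap.opNorm_lsmul_le) hc hf

/-- operator valued function applied to a vector function -/
theorem app {A : EE n → F →L[ℝ] G} (hU : IsOpen U) (hA : CKA a U k N A) (hf : CKA a U k M f) :
    CKA a U k (2 ^ (k + 1) * (N * M)) fun x => A x (f x) := by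
  simpa using bilin hU (ContinuousLinearMap.id ℝ (F →L[ℝ] G)) (L := 1)
    ContinuousLinearMap.norm_id_le hA hf

theorem prod {g : EE n → G} (hU : IsOpen U) (hf : CKA a U k M f) (hg : CKA a U k N g) :
    CKA a U k (M + N) fun x => (f x, g x) := by
  have h1 := hf.clm1 hU (ContinuousLinearMap.inl ℝ F G) (ContinuousLinearMap.norm_inl_le_one ℝ F G)
  have h2 := hg.clm1 hU (ContinuousLinearMap.inr ℝ F G) (ContinuousLinearMap.norm_inr_le_one ℝ F G)
  simpa using h1.add hU h2

theorem fst {f : EE n → F × G} (hU : IsOpen U) (h : CKA a U k M f) :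
    CKA a U k M fun x => (f x).1 :=
  h.clm1 hU (ContinuousLinearMap.fst ℝ F G) (ContinuousLinearMap.norm_fst_le ℝ F G)

theorem snd {f : EE n → F × G} (hU : IsOpen U) (h : CKA a U k M f) :
    CKA a U k M fun x => (f x).2 :=
  h.clm1 hU (ContinuousLinearMap.snd ℝ F G) (ContinuousLinearMap.norm_snd_le ℝ F G)

theorem apply {ι : Type} [Fintype ι] {f : EE n → ι → F} (hU : IsOpen U) (h : CKA a U k M f)
    (i : ι) : CKA a U k M fun x => f x i :=
  h.clm1 hU (ContinuousLinearMap.proj i)
    (ContinuousLinearMap.opNorm_le_bound _ zero_le_one fun v => by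
      simpa using norm_le_pi_norm v i)

theorem pi {ι : Type} [Fintype ι] {f : ι → EE n → F} (hU : IsOpen U)
    (h : ∀ i, CKA a U k M (f i)) : CKA a U k (Fintype.card ι * M) fun x i => f i x := by
  classical
  have h1 : ∀ i, CKA a U k M fun x => (Pi.single i (f i x) : ι → F) := fun i =>
    (h i).clm1 hU (ContinuousLinearMap.single ℝ (fun _ : ι => F) i)
      (ContinuousLinearMap.opNorm_le_bound _ zero_le_one fun v => by
        simp [Pi.norm_single])
  refine (sum_le hU h1).congr hU fun x _ => ?_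
  exact (Finset.univ_sum_single fun i => f i x).symm

end CKA

theorem clm_eq_sum (T : EE n →L[ℝ] F) :
    T = ∑ i, ContinuousLinearMap.smulRightL ℝ (EE n) F (EuclideanSpace.proj i) (T (ei i)) := by
  ext v
  have h : v = ∑ i, v i • (ei i : EE n) := by
    have := (EuclideanSpace.basisFun (Fin n) ℝ).sum_repr v
    simpa using this.symm
  conv_lhs => rw [h]
  simp

theorem norm_smulRightL_proj (i : Fin n) :
    ‖ContinuousLinearMap.smulRightL ℝ (EE n) F (EuclideanSpace.proj i)‖ ≤ 1 := by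
  refine ContinuousLinearMap.opNorm_le_bound _ zero_le_one fun u => ?_
  refine ContinuousLinearMap.opNorm_le_bound _ (by positivity) fun v => ?_
  have : |v i| ≤ ‖v‖ := by simpa using PiLp.norm_apply_le v i
  simp only [ContinuousLinearMap.smulRightL_apply_apply, ContinuousLinearMap.smulRight_apply,
    norm_smul, one_mul]
  rw [mul_comm]
  exact mul_le_mul_of_nonneg_left (by simpa using this) (norm_nonneg _)

namespace CKA

/-- the total derivative -/
theorem fderiv (hU : IsOpen U) (h : CKA a U (k + 1) M f) : CKA a U k (n * M) (fderiv ℝ f) := by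
  have h1 := sum_le hU fun i => (h.pd i).clm1 hU _ (norm_smulRightL_proj i)
  rw [Fintype.card_fin] at h1
  exact h1.congr hU fun x _ => clm_eq_sum _

theorem of_fderiv (hU : IsOpen U) (h0 : HO a M U f) (hd : DifferentiableOn ℝ f U)
    (h : CKA a U k M (_root_.fderiv ℝ f)) : CKA a U (k + 1) M f :=
  ⟨h0, hd, fun i => h.clm1 hU (ContinuousLinearMap.apply ℝ F (ei i))
    (ContinuousLinearMap.opNorm_le_bound _ zero_le_one fun T => by
      simpa using T.le_opNorm (ei i))⟩

theorem contDiffOn (hU : IsOpen U) (ha : 0 < a) (h : CKA a U k M f) : ContDiffOn ℝ k f U := by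
  induction k generalizing F M with
  | zero => simpa using ho_continuousOn h ha
  | succ k ih =>
    rw [Nat.cast_succ, contDiffOn_succ_iff_fderiv_of_isOpen hU]
    exact ⟨h.diff, by simp, ih (h.fderiv hU)⟩

/-- affine change of variables -/
theorem affine (hU : IsOpen U) (ha : 0 ≤ a) (ha1 : a ≤ 1) (h : CKA a U k M f) (c : EE n)
    {r L : ℝ} (hr : |r| ≤ L) (hL : 1 ≤ L) :
    CKA a ((fun x => c + r • x) ⁻¹' U) k (L ^ (k + 1) * M) fun x => f (c + r • x) := by
  have hA : ∀ y : EE n, HasFDerivAt (fun y : EE n => c + r • y)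
      (r • ContinuousLinearMap.id ℝ (EE n)) y := fun y =>
    ((hasFDerivAt_id y).const_smul r).const_add c
  have hO : IsOpen ((fun x : EE n => c + r • x) ⁻¹' U) :=
    hU.preimage (continuous_const.add (continuous_id.const_smul r))
  have h0 : ∀ {f : EE n → F}, HO a M U f →
      HO a (L * M) ((fun x => c + r • x) ⁻¹' U) fun x => f (c + r • x) := fun {f} h => by
    refine ⟨fun x hx => (h.bdd _ hx).trans (le_mul_of_one_le_left (h.nonneg hx) hL),
      fun x hx y hy => (h.hol _ hx _ hy).trans ?_⟩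
    have e : c + r • x - (c + r • y) = r • (x - y) := by rw [smul_sub]; abel
    rw [e, norm_smul, Real.norm_eq_abs, Real.mul_rpow (abs_nonneg _) (norm_nonneg _)]
    have h1 : |r| ^ a ≤ L := by
      calc |r| ^ a ≤ L ^ a := Real.rpow_le_rpow (abs_nonneg _) hr ha
        _ ≤ L ^ (1 : ℝ) := Real.rpow_le_rpow_of_exponent_le hL ha1
        _ = L := Real.rpow_one L
    have h2 := mul_le_mul_of_nonneg_right h1
      (mul_nonneg (h.nonneg hx) (Real.rpow_nonneg (norm_nonneg (x - y)) a))
    linarith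
  rcases ((fun x : EE n => c + r • x) ⁻¹' U).eq_empty_or_nonempty with he | ⟨x1, hx1⟩
  · rw [he]; exact empty _
  have hM : 0 ≤ M := h.nonneg hx1
  induction k generalizing f with
  | zero => simpa [cka_zero] using h0 h
  | succ k ih =>
    refine ⟨(h0 h.1).mono ?_, fun x hx => ?_, fun i => ?_⟩
    · exact mul_le_mul_of_nonneg_right (le_self_pow₀ hL (by omega)) hM
    · exact ((h.diffAt hU hx).comp x (hA x).differentiableAt).differentiableWithinAt
    · refine (((ih (h.pd i)).smul hO r).congr hO fun x hx => ?_).mono ?_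
      · have h1 := ((h.diffAt hU hx).hasFDerivAt.comp x (hA x)).fderiv
        have h2 : (fun x => f (c + r • x)) = f ∘ fun x => c + r • x := rfl
        rw [h2, h1]
        simp
      · have h2 : 0 ≤ L ^ (k + 1) * M := mul_nonneg (pow_nonneg (by linarith) _) hM
        calc _ ≤ _ := mul_le_mul_of_nonneg_right hr h2
          _ = _ := by ring

/-- contraction of the variable: same constant -/
theorem dilate (hU : IsOpen U) (ha : 0 ≤ a) (ha1 : a ≤ 1) (h : CKA a U k M f) (c : EE n)
    {r : ℝ} (hr : |r| ≤ 1) :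
    CKA a ((fun x => c + r • x) ⁻¹' U) k M fun x => f (c + r • x) := by
  simpa using h.affine hU ha ha1 c hr le_rfl

theorem translate (hU : IsOpen U) (ha : 0 ≤ a) (ha1 : a ≤ 1) (h : CKA a U k M f) (c : EE n) :
    CKA a ((fun x => x + c) ⁻¹' U) k M fun x => f (x + c) := by
  simpa [add_comm] using h.dilate hU ha ha1 c (r := 1) (by simp)

end CKA

end

end Crest.Agent.NLib.Ell
end

-- ▼ part NLib/Ell/CKA2

/-!
# Calculus of the classes `CKA`, part 2 (helper8, task T6c)

`CKA.of_local` (uniform small balls ⇒ the set), `CKA.dq` (finite differences), `CKA.taylor`,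
`CKA.limit` (closed under pointwise limits), `CKA.of_dq`, `comp : CompStmt`,
`ckaDict : CKADictStmt`.
-/

set_option autoImplicit false
open Metric Set Filter Topology
open scoped ContDiff

namespace Crest.Agent.NLib.Ell

open Crest.Agent.R273.SchA_152

noncomputable section

variable {n : ℕ} {F G : Type} [NormedAddCommGroup F] [NormedSpace ℝ F] [NormedAddCommGroup G]
  [NormedSpace ℝ G] {a M N : ℝ} {U V : Set (EE n)} {k : ℕ} {f g : EE n → F}

theorem ho_of_balls {X Y : Type*} [NormedAddCommGroup X] [NormedAddCommGroup Y] {s : Set X}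
    {f : X → Y} {δ : ℝ} (ha : 0 ≤ a) (ha1 : a ≤ 1) (hδ : 0 < δ) (hδ1 : δ ≤ 1)
    (h : ∀ x ∈ s, HO a M (ball x δ) f) : HO a (2 / δ * M) s f := by
  have h2 : 1 ≤ 2 / δ := by rw [le_div_iff₀ hδ]; linarith
  refine ⟨fun x hx => ?_, fun x hx y hy => ?_⟩
  · have h1 := (h x hx).bdd x (mem_ball_self hδ)
    exact h1.trans (le_mul_of_one_le_left ((norm_nonneg _).trans h1) h2)
  have hM : 0 ≤ M := (h x hx).nonneg (mem_ball_self hδ)
  have hp : 0 ≤ ‖x - y‖ ^ a := Real.rpow_nonneg (norm_nonneg _) _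
  rcases lt_or_ge ‖x - y‖ δ with hl | hl
  · have h1 := (h x hx).hol x (mem_ball_self hδ) y (by rwa [mem_ball, dist_comm, dist_eq_norm])
    exact h1.trans (mul_le_mul_of_nonneg_right (le_mul_of_one_le_left hM h2) hp)
  · have h3 : δ ≤ ‖x - y‖ ^ a := by
      calc δ = δ ^ (1 : ℝ) := (Real.rpow_one δ).symm
        _ ≤ δ ^ a := Real.rpow_le_rpow_of_exponent_ge hδ hδ1 ha1
        _ ≤ _ := Real.rpow_le_rpow hδ.le hl ha
    have h4 := (h x hx).bdd x (mem_ball_self hδ)
    have h5 := (h y hy).bdd y (mem_ball_self hδ)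
    calc ‖f x - f y‖ ≤ 2 * M := (norm_sub_le _ _).trans (by linarith)
      _ = 2 / δ * M * δ := by field_simp
      _ ≤ _ := mul_le_mul_of_nonneg_left h3 (by positivity)

/-- bounded and Lipschitz implies Hölder -/
theorem ho_of_lip {X Y : Type*} [NormedAddCommGroup X] [NormedAddCommGroup Y] {s : Set X}
    {f : X → Y} (ha : 0 ≤ a) (ha1 : a ≤ 1) (h0 : ∀ x ∈ s, ‖f x‖ ≤ M)
    (h1 : ∀ x ∈ s, ∀ y ∈ s, ‖f x - f y‖ ≤ M * ‖x - y‖) : HO a (2 * M) s f := by
  refine ⟨fun x hx => ?_, fun x hx y hy => ?_⟩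
  · have := (norm_nonneg _).trans (h0 x hx)
    linarith [h0 x hx]
  have hM : 0 ≤ M := (norm_nonneg _).trans (h0 x hx)
  have hp : 0 ≤ ‖x - y‖ ^ a := Real.rpow_nonneg (norm_nonneg _) _
  rcases le_total ‖x - y‖ 1 with hl | hl
  · have h3 : ‖x - y‖ ≤ ‖x - y‖ ^ a := by
      rcases (norm_nonneg (x - y)).eq_or_lt with h | h
      · rw [← h]; exact Real.rpow_nonneg le_rfl a
      · calc ‖x - y‖ = ‖x - y‖ ^ (1 : ℝ) := (Real.rpow_one _).symm
          _ ≤ _ := Real.rpow_le_rpow_of_exponent_ge h hl ha1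
    have h4 := mul_le_mul_of_nonneg_left h3 hM
    have h5 := mul_nonneg hM hp
    linarith [h1 x hx y hy]
  · have h3 : 1 ≤ ‖x - y‖ ^ a := Real.one_le_rpow hl ha
    have h4 := mul_le_mul_of_nonneg_left h3 hM
    have h5 := norm_sub_le (f x) (f y)
    linarith [h0 x hx, h0 y hy]

theorem hasDerivAt_line {x v : EE n} {t : ℝ} (h : DifferentiableAt ℝ f (x + t • v)) :
    HasDerivAt (fun s : ℝ => f (x + s • v)) (fderiv ℝ f (x + t • v) v) t := by
  have h1 : HasDerivAt (fun s : ℝ => x + s • v) v t := by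
    simpa using ((hasDerivAt_id t).smul_const v).const_add x
  exact h.hasFDerivAt.comp_hasDerivAt t h1

namespace CKA

theorem of_local {δ : ℝ} (ha : 0 ≤ a) (ha1 : a ≤ 1) (hδ : 0 < δ) (hδ1 : δ ≤ 1)
    (h : ∀ x ∈ V, CKA a (ball x δ) k M f) : CKA a V k (2 / δ * M) f := by
  induction k generalizing f with
  | zero => exact ho_of_balls ha ha1 hδ hδ1 h
  | succ k ih =>
    exact ⟨ho_of_balls ha ha1 hδ hδ1 fun x hx => (h x hx).1, fun x hx =>
      ((h x hx).diffAt isOpen_ball (mem_ball_self hδ)).differentiableWithinAt,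
      fun i => ih fun x hx => (h x hx).pd i⟩

/-- finite differences, in terms of the directional derivative -/
theorem dq_dir (hU : IsOpen U) (hV : IsOpen V) {v : EE n}
    (hseg : ∀ x ∈ V, ∀ t ∈ Icc (0 : ℝ) 1, x + t • v ∈ U) (h : CKA a U (k + 1) M f) :
    CKA a V k (n * M * ‖v‖) fun x => f (x + v) - f x := by
  have hx0 : ∀ x ∈ V, x ∈ U := fun x hx => by simpa using hseg x hx 0 (by simp)
  have hx1 : ∀ x ∈ V, x + v ∈ U := fun x hx => by simpa using hseg x hx 1 (by simp)
  have h0 : ∀ {f : EE n → F}, CKA a U 1 M f →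
      HO a (n * M * ‖v‖) V fun x => f (x + v) - f x := fun {f} h => by
    have hD : HO a (n * M) U (_root_.fderiv ℝ f) := h.fderiv hU
    have hl : ∀ x ∈ V, ∀ t ∈ Icc (0 : ℝ) 1, HasDerivAt (fun s : ℝ => f (x + s • v))
        (_root_.fderiv ℝ f (x + t • v) v) t := fun x hx t ht =>
      hasDerivAt_line (h.diffAt hU (hseg x hx t ht))
    refine ⟨fun x hx => ?_, fun x hx y hy => ?_⟩
    · have := norm_image_sub_le_of_norm_deriv_le_segment_01' (C := n * M * ‖v‖)
        (fun t ht => (hl x hx t ht).hasDerivWithinAt) fun t ht =>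
          (ContinuousLinearMap.le_opNorm _ _).trans (mul_le_mul_of_nonneg_right
            (hD.bdd _ (hseg x hx t (Ico_subset_Icc_self ht))) (norm_nonneg _))
      simpa using this
    · have := norm_image_sub_le_of_norm_deriv_le_segment_01' (C := n * M * ‖v‖ * ‖x - y‖ ^ a)
        (fun t ht => ((hl x hx t ht).sub (hl y hy t ht)).hasDerivWithinAt) fun t ht => by
          rw [← _root_.sub_apply]
          have h1 := hD.hol _ (hseg x hx t (Ico_subset_Icc_self ht)) _
            (hseg y hy t (Ico_subset_Icc_self ht))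
          rw [add_sub_add_right_eq_sub] at h1
          refine (ContinuousLinearMap.le_opNorm _ _).trans ?_
          calc _ ≤ _ := mul_le_mul_of_nonneg_right h1 (norm_nonneg v)
            _ = _ := by ring
      simp only [Pi.sub_apply, one_smul, zero_smul, add_zero] at this
      have e : f (x + v) - f x - (f (y + v) - f y) = f (x + v) - f (y + v) - (f x - f y) := by abel
      rwa [e]
  have hd : ∀ {f : EE n → F} {x : EE n}, DifferentiableAt ℝ f (x + v) →
      HasFDerivAt (fun x => f (x + v)) (_root_.fderiv ℝ f (x + v)) x := fun {f x} h => by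
    have := h.hasFDerivAt.comp x ((hasFDerivAt_id x).add_const v)
    rw [ContinuousLinearMap.comp_id] at this
    exact this
  induction k generalizing f with
  | zero => exact h0 h
  | succ k ih =>
    refine ⟨h0 (h.of_le (by omega)), fun x hx => ?_, fun i => ?_⟩
    · exact ((hd (h.diffAt hU (hx1 x hx))).differentiableAt.sub
        (h.diffAt hU (hx0 x hx))).differentiableWithinAt
    · refine (ih (h.pd i)).congr hV fun x hx => ?_
      have := ((hd (h.diffAt hU (hx1 x hx))).sub (h.diffAt hU (hx0 x hx)).hasFDerivAt).fderiv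
      have e : (fun x => f (x + v) - f x) = (fun x => f (x + v)) - f := rfl
      rw [e, this]
      rfl

/-- finite differences on concentric balls -/
theorem dq {x0 v : EE n} {r R : ℝ} (hv : r + ‖v‖ ≤ R) (h : CKA a (ball x0 R) (k + 1) M f) :
    CKA a (ball x0 r) k (n * M * ‖v‖) fun x => f (x + v) - f x := by
  refine dq_dir isOpen_ball isOpen_ball (fun x hx t ht => ?_) h
  rw [mem_ball, dist_eq_norm] at hx ⊢
  have e : x + t • v - x0 = (x - x0) + t • v := by abel
  have h1 : ‖t • v‖ ≤ ‖v‖ := by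
    rw [norm_smul, Real.norm_of_nonneg ht.1]
    exact mul_le_of_le_one_left (norm_nonneg _) ht.2
  rw [e]
  linarith [norm_add_le (x - x0) (t • v)]

/-- first order Taylor estimate -/
theorem taylor (hU : IsOpen U) (ha : 0 ≤ a) (h : CKA a U 1 M f) {x v : EE n} {η : ℝ}
    (hη : ball x η ⊆ U) (hv : ‖v‖ < η) :
    ‖f (x + v) - f x - _root_.fderiv ℝ f x v‖ ≤ n * M * ‖v‖ ^ a * ‖v‖ := by
  have hD : HO a (n * M) U (_root_.fderiv ℝ f) := h.fderiv hU
  have hx : x ∈ closedBall x ‖v‖ := mem_closedBall_self (norm_nonneg _)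
  have hs : closedBall x ‖v‖ ⊆ U := (closedBall_subset_ball hv).trans hη
  have := (convex_closedBall x ‖v‖).norm_image_sub_le_of_norm_fderiv_le' (f := f)
    (φ := _root_.fderiv ℝ f x) (C := n * M * ‖v‖ ^ a) (fun w hw => h.diffAt hU (hs hw))
    (fun w hw => (hD.hol w (hs hw) x (hs hx)).trans (mul_le_mul_of_nonneg_left
      (Real.rpow_le_rpow (norm_nonneg _) (by simpa [dist_eq_norm] using hw) ha)
      (hD.nonneg (hs hx)))) hx (y := x + v) (by simp)
  simpa using this

/-- **`CKA` is closed under pointwise limits**, and the partial derivatives converge. -/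
theorem limit_one [CompleteSpace F] {ι : Type*} {l : Filter ι} [l.NeBot] (hU : IsOpen U)
    (ha : 0 < a) {u : ι → EE n → F} (h : ∀ᶠ j in l, CKA a U 1 M (u j))
    (hf : ∀ x ∈ U, Tendsto (fun j => u j x) l (𝓝 (f x))) {x : EE n} (hx : x ∈ U) :
    DifferentiableAt ℝ f x ∧
      ∀ v, Tendsto (fun j => _root_.fderiv ℝ (u j) x v) l (𝓝 (_root_.fderiv ℝ f x v)) := by
  obtain ⟨η, hη, hηU⟩ := Metric.isOpen_iff.1 hU x hx
  have hM : 0 ≤ M := by
    obtain ⟨j, hj⟩ := h.exists
    exact hj.nonneg hx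
  have hsm : Tendsto (fun t : ℝ => t ^ a) (𝓝 0) (𝓝 0) := by
    have := (Real.continuousAt_rpow_const 0 a (Or.inr ha.le)).tendsto
    rwa [Real.zero_rpow ha.ne'] at this
  have hc : ∀ i, ∃ D, Tendsto (fun j => _root_.fderiv ℝ (u j) x (ei i)) l (𝓝 D) := fun i => by
    refine cauchy_iff_exists_le_nhds.1 (Metric.cauchy_iff.2 ⟨inferInstance, fun ε hε => ?_⟩)
    obtain ⟨t, ht0, htη, hta⟩ : ∃ t : ℝ, 0 < t ∧ t < η ∧ n * M * t ^ a < ε / 4 := by
      have h1 : ∀ᶠ t : ℝ in 𝓝 0, n * M * t ^ a < ε / 4 :=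
        (hsm.const_mul (n * M)).eventually (gt_mem_nhds (by simpa using hε))
      have h2 : ∀ᶠ t : ℝ in 𝓝 0, t < η := gt_mem_nhds hη
      obtain ⟨t, ⟨h3, h4⟩, h5⟩ := (((h1.and h2).filter_mono nhdsWithin_le_nhds).and
        (self_mem_nhdsWithin (s := Ioi (0 : ℝ)))).exists
      exact ⟨t, h5, h4, h3⟩
    have hn : ‖t • (ei i : EE n)‖ = t := by rw [norm_smul, norm_ei, Real.norm_of_nonneg ht0.le, mul_one]
    have hy : x + t • ei i ∈ U := hηU (by simpa [hn] using htη)
    have h1 : Tendsto (fun j => t⁻¹ • (u j (x + t • ei i) - u j x)) l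
        (𝓝 (t⁻¹ • (f (x + t • ei i) - f x))) := ((hf _ hy).sub (hf _ hx)).const_smul _
    refine ⟨ball (t⁻¹ • (f (x + t • ei i) - f x)) (ε / 2), ?_, fun p hp q hq => ?_⟩
    · rw [mem_map]
      filter_upwards [h, Metric.tendsto_nhds.1 h1 (ε / 4) (by positivity)] with j hj h2
      have h3 := hj.taylor hU ha.le hηU (v := t • ei i) (by rwa [hn])
      rw [hn, map_smul] at h3
      have h4 : dist (_root_.fderiv ℝ (u j) x (ei i)) (t⁻¹ • (u j (x + t • ei i) - u j x))
          ≤ n * M * t ^ a := by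
        have e : t⁻¹ • (u j (x + t • ei i) - u j x) - _root_.fderiv ℝ (u j) x (ei i) =
            t⁻¹ • (u j (x + t • ei i) - u j x - t • _root_.fderiv ℝ (u j) x (ei i)) := by
          rw [smul_sub t⁻¹ _ (t • _), smul_smul, inv_mul_cancel₀ ht0.ne', one_smul]
        rw [dist_comm, dist_eq_norm, e, norm_smul, norm_inv, Real.norm_of_nonneg ht0.le,
          inv_mul_le_iff₀ ht0]
        linarith
      rw [mem_preimage, mem_ball]
      linarith [dist_triangle (_root_.fderiv ℝ (u j) x (ei i))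
        (t⁻¹ • (u j (x + t • ei i) - u j x)) (t⁻¹ • (f (x + t • ei i) - f x))]
    · rw [mem_ball] at hp hq
      linarith [dist_triangle_right p q (t⁻¹ • (f (x + t • ei i) - f x))]
  choose D hD using hc
  set T : EE n →L[ℝ] F :=
    ∑ i, ContinuousLinearMap.smulRightL ℝ (EE n) F (EuclideanSpace.proj i) (D i) with hT
  have hTv : ∀ v, Tendsto (fun j => _root_.fderiv ℝ (u j) x v) l (𝓝 (T v)) := fun v => by
    have e : ∀ j, _root_.fderiv ℝ (u j) x v = ∑ i, v i • _root_.fderiv ℝ (u j) x (ei i) :=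
      fun j => by
        conv_lhs => rw [clm_eq_sum (_root_.fderiv ℝ (u j) x)]
        simp
    have e' : T v = ∑ i, v i • D i := by simp [hT]
    simp only [e, e']
    exact tendsto_finsetSum _ fun i _ => (hD i).const_smul _
  have hfd : HasFDerivAt f T x := by
    rw [hasFDerivAt_iff_isLittleO_nhds_zero, Asymptotics.isLittleO_iff]
    intro c hc
    have h1 : ∀ᶠ v : EE n in 𝓝 0, n * M * ‖v‖ ^ a < c := by
      have h2 : Tendsto (fun v : EE n => ‖v‖) (𝓝 0) (𝓝 0) := tendsto_norm_zero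
      exact ((hsm.comp h2).const_mul (n * M)).eventually (gt_mem_nhds (by simpa using hc))
    filter_upwards [h1, ball_mem_nhds (0 : EE n) hη] with v hv1 hv2
    rw [mem_ball, dist_zero_right] at hv2
    have hy : x + v ∈ U := hηU (by simpa using hv2)
    have h3 : ‖f (x + v) - f x - T v‖ ≤ n * M * ‖v‖ ^ a * ‖v‖ :=
      le_of_tendsto (((hf _ hy).sub (hf _ hx)).sub (hTv v)).norm
        (h.mono fun j hj => hj.taylor hU ha.le hηU hv2)
    exact h3.trans (mul_le_mul_of_nonneg_right hv1.le (norm_nonneg _))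
  exact ⟨hfd.differentiableAt, fun v => by rw [hfd.fderiv]; exact hTv v⟩

theorem limit [CompleteSpace F] {ι : Type*} {l : Filter ι} [l.NeBot] (hU : IsOpen U)
    (ha : 0 < a) {u : ι → EE n → F} (h : ∀ᶠ j in l, CKA a U k M (u j))
    (hf : ∀ x ∈ U, Tendsto (fun j => u j x) l (𝓝 (f x))) : CKA a U k M f := by
  have h0 : ∀ {f : EE n → F} {u : ι → EE n → F}, (∀ᶠ j in l, HO a M U (u j)) →
      (∀ x ∈ U, Tendsto (fun j => u j x) l (𝓝 (f x))) → HO a M U f := fun h hf =>
    ⟨fun x hx => le_of_tendsto (hf x hx).norm (h.mono fun j hj => hj.bdd x hx),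
      fun x hx y hy => le_of_tendsto ((hf x hx).sub (hf y hy)).norm
        (h.mono fun j hj => hj.hol x hx y hy)⟩
  induction k generalizing f u with
  | zero => exact h0 h hf
  | succ k ih =>
    have h1 : ∀ᶠ j in l, CKA a U 1 M (u j) := h.mono fun j hj => hj.of_le (by omega)
    exact ⟨h0 (h.mono fun j hj => hj.1) hf, fun x hx =>
      (limit_one hU ha h1 hf hx).1.differentiableWithinAt, fun i =>
      ih (h.mono fun j hj => hj.pd i) fun x hx => (limit_one hU ha h1 hf hx).2 _⟩

/-- uniformly bounded difference quotients bound the directional derivative -/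
theorem of_dq [CompleteSpace F] (hU : IsOpen U) (ha : 0 < a) (hd : DifferentiableOn ℝ f U)
    {v : EE n} (h : ∀ᶠ t in 𝓝[>] (0 : ℝ), CKA a U k (M * t) fun x => f (x + t • v) - f x) :
    CKA a U k M fun x => _root_.fderiv ℝ f x v := by
  refine limit (l := 𝓝[>] (0 : ℝ)) (u := fun t x => t⁻¹ • (f (x + t • v) - f x)) hU ha ?_ ?_
  · filter_upwards [h, self_mem_nhdsWithin] with t ht ht0
    refine (ht.smul hU t⁻¹).mono (le_of_eq ?_)
    have : (0 : ℝ) < t := ht0
    rw [abs_of_pos (inv_pos.2 this)]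
    field_simp
  · intro x hx
    have h1 : HasDerivAt (fun s : ℝ => f (x + s • v)) (_root_.fderiv ℝ f (x + (0 : ℝ) • v) v) 0 :=
      hasDerivAt_line (by simpa using hd.differentiableAt (hU.mem_nhds hx))
    have h2 := h1.tendsto_slope_zero_right
    simpa using h2

end CKA

/-! ### composition with smooth maps -/

theorem comp : CompStmt := by
  intro n k a M ha ha1 F G _ _ _ _ _ Φ W K hW hK hKW hΦ
  have h0 : ∀ (G : Type) [NormedAddCommGroup G] [NormedSpace ℝ G] (Φ : F → G),
      ContDiffOn ℝ ∞ Φ W → ∃ C : ℝ, ∀ (U : Set (EE n)) (f : EE n → F), (∀ x ∈ U, f x ∈ K) →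
        HO a M U f → HO a C U fun x => Φ (f x) := by
    intro G _ _ Φ hΦ
    obtain ⟨B, hB⟩ := hK.exists_bound_of_continuousOn (hΦ.continuousOn.mono hKW)
    have hloc : LocallyLipschitzOn K Φ := fun y hy => by
      obtain ⟨L, t, ht, hL⟩ := ((hΦ.contDiffAt (hW.mem_nhds (hKW hy))).of_le
        (m := 1) (by exact_mod_cast le_top)).exists_lipschitzOnWith
      exact ⟨L, t, mem_nhdsWithin_of_mem_nhds ht, hL⟩
    obtain ⟨L, hL⟩ := hloc.exists_lipschitzOnWith_of_compact hK
    refine ⟨max B (L * M), fun U f hf h => ⟨fun x hx => (hB _ (hf x hx)).trans (le_max_left _ _),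
      fun x hx y hy => ?_⟩⟩
    have h1 := hL.norm_sub_le (hf x hx) (hf y hy)
    have h2 := mul_le_mul_of_nonneg_left (h.hol x hx y hy) L.coe_nonneg
    have h3 := mul_le_mul_of_nonneg_right (le_max_right B (L * M))
      (Real.rpow_nonneg (norm_nonneg (x - y)) a)
    linarith
  induction k generalizing G with
  | zero =>
    obtain ⟨C, hC⟩ := h0 G Φ hΦ
    exact ⟨C, fun U f _ hf h => hC U f hf h⟩
  | succ k ih =>
    obtain ⟨C, hC⟩ := h0 G Φ hΦ
    obtain ⟨hd, hΦ'⟩ := (contDiffOn_infty_iff_fderiv_of_isOpen hW).1 hΦ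
    obtain ⟨C', hC'⟩ := ih (F →L[ℝ] G) (fderiv ℝ Φ) hΦ'
    refine ⟨max C (2 ^ (k + 1) * (C' * M)), fun U f hU hf h => ?_⟩
    have hdx : ∀ x ∈ U, DifferentiableAt ℝ Φ (f x) := fun x hx =>
      hd.differentiableAt (hW.mem_nhds (hKW (hf x hx)))
    refine ⟨(hC U f hf h.1).mono (le_max_left _ _), fun x hx =>
      ((hdx x hx).comp x (h.diffAt hU hx)).differentiableWithinAt, fun i => ?_⟩
    refine ((((hC' U f hU hf h.pred).app hU (h.pd i))).congr hU fun x hx => ?_).mono
      (le_max_right _ _)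
    rw [fderiv_fun_comp x (hdx x hx) (h.diffAt hU hx)]
    rfl

/-! ### dictionary with `iteratedFDeriv` -/

theorem ho_iso {X Y Z : Type*} [NormedAddCommGroup X] [NormedAddCommGroup Y]
    [NormedAddCommGroup Z] {s : Set X} {f : X → Y} {g : X → Z} (h0 : ∀ x, ‖g x‖ = ‖f x‖)
    (h1 : ∀ x y, ‖g x - g y‖ = ‖f x - f y‖) : HO a M s g ↔ HO a M s f :=
  ⟨fun h => ⟨fun x hx => h0 x ▸ h.bdd x hx, fun x hx y hy => h1 x y ▸ h.hol x hx y hy⟩,
    fun h => ⟨fun x hx => (h0 x).symm ▸ h.bdd x hx,
      fun x hx y hy => (h1 x y).symm ▸ h.hol x hx y hy⟩⟩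

theorem ho_iter_zero : HO a M U (iteratedFDeriv ℝ 0 f) ↔ HO a M U f :=
  ho_iso (fun _ => norm_iteratedFDeriv_zero) fun x y => by
    rw [iteratedFDeriv_zero_eq_comp, Function.comp_apply, Function.comp_apply, ← map_sub,
      LinearIsometryEquiv.norm_map]

theorem ho_iter_succ {j : ℕ} :
    HO a M U (iteratedFDeriv ℝ (j + 1) f) ↔ HO a M U (iteratedFDeriv ℝ j (fderiv ℝ f)) :=
  ho_iso (fun _ => norm_iteratedFDeriv_fderiv.symm) fun x y => by
    rw [iteratedFDeriv_succ_eq_comp_right, iteratedFDeriv_succ_eq_comp_right, Function.comp_apply,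
      Function.comp_apply, ← LinearIsometryEquiv.map_sub, LinearIsometryEquiv.norm_map]

theorem CKA.ho_iter (hU : IsOpen U) {j : ℕ} (h : CKA a U j M f) :
    HO a (n ^ j * M) U (iteratedFDeriv ℝ j f) := by
  induction j generalizing F M with
  | zero => simpa [ho_iter_zero] using h.ho
  | succ j ih =>
    rw [ho_iter_succ]
    exact (ih (h.fderiv hU)).mono (le_of_eq (by ring))

theorem CKA.of_iter (hU : IsOpen U) (hf : ContDiffOn ℝ k f U)
    (h : ∀ j ≤ k, HO a M U (iteratedFDeriv ℝ j f)) : CKA a U k M f := by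
  induction k generalizing F with
  | zero => exact ho_iter_zero.1 (h 0 le_rfl)
  | succ k ih =>
    rw [Nat.cast_succ, contDiffOn_succ_iff_fderiv_of_isOpen hU] at hf
    exact CKA.of_fderiv hU (ho_iter_zero.1 (h 0 (by omega))) hf.1
      (ih hf.2.2 fun j hj => ho_iter_succ.1 (h (j + 1) (by omega)))

theorem CKA.of_bounds (hU : IsOpen U) (hc : Convex ℝ U) (ha : 0 ≤ a) (ha1 : a ≤ 1)
    (hf : ContDiffOn ℝ (k + 1 : ℕ) f U)
    (h : ∀ j ≤ k + 1, ∀ x ∈ U, ‖iteratedFDeriv ℝ j f x‖ ≤ M) : CKA a U k (2 * M) f := by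
  have h0 : ∀ {F : Type} [NormedAddCommGroup F] [NormedSpace ℝ F] {f : EE n → F},
      DifferentiableOn ℝ f U → (∀ j ≤ 1, ∀ x ∈ U, ‖iteratedFDeriv ℝ j f x‖ ≤ M) →
      HO a (2 * M) U f := fun {F} _ _ {f} hd h =>
    ho_of_lip ha ha1 (fun x hx => by simpa using h 0 (by omega) x hx) fun x hx y hy =>
      hc.norm_image_sub_le_of_norm_fderiv_le (fun w hw => hd.differentiableAt (hU.mem_nhds hw))
        (fun w hw => by simpa [norm_iteratedFDeriv_one] using h 1 le_rfl w hw) hy hx
  induction k generalizing F with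
  | zero => exact h0 (hf.differentiableOn (by simp)) h
  | succ k ih =>
    rw [Nat.cast_succ, contDiffOn_succ_iff_fderiv_of_isOpen hU] at hf
    refine CKA.of_fderiv hU (h0 hf.1 fun j hj => h j (by omega)) hf.1 (ih hf.2.2 fun j hj x hx => ?_)
    rw [norm_iteratedFDeriv_fderiv]
    exact h (j + 1) (by omega) x hx

theorem ckaDict : CKADictStmt := by
  intro n k a ha ha1
  have h1 : (1 : ℝ) ≤ ((n : ℝ) + 1) ^ k := one_le_pow₀ (by simp)
  refine ⟨2 * ((n : ℝ) + 1) ^ k, by linarith, fun F _ _ U f M hU =>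
    ⟨fun h => ⟨h.contDiffOn hU ha, fun j hj => ?_⟩, CKA.of_iter hU, fun hc hf h => ?_⟩⟩
  · rcases U.eq_empty_or_nonempty with rfl | ⟨x, hx⟩
    · exact ho_empty _
    refine ((h.of_le hj).ho_iter hU).mono (mul_le_mul_of_nonneg_right ?_ (h.nonneg hx))
    calc (n : ℝ) ^ j ≤ ((n : ℝ) + 1) ^ j := pow_le_pow_left₀ (by positivity) (by linarith) j
      _ ≤ ((n : ℝ) + 1) ^ k := pow_le_pow_right₀ (by simp) hj
      _ ≤ _ := by linarith
  · refine (CKA.of_bounds hU hc ha.le ha1 hf h).mono' fun h0 => ?_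
    nlinarith

end

end Crest.Agent.NLib.Ell
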