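import Crest.Agent.NLib.Ell.Arzela
import Crest.Agent.R238.MaxPOY
import Crest.Agent.R238.MaxPMat

-- ▼ part NLib/Ell/Solve
section

/-!
# The global linear problem `τ : D²z - z = f` (helper16)

`gSch` (global Schauder estimate), `solve` (continuity method), `sol_unique`, `sol_periodic`.
-/

set_option autoImplicit false
open MeasureTheory Metric Set Filter Topology
open scoped ContDiff

namespace Crest.Agent.NLib.Ell

open Crest.Agent.R238.Sch Crest.Agent.R273.SchA_152 Crest.Agent.R273.SchD_152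
open Crest.Agent.R273.SchB_152 (P2 ell_conv)
open Crest.Agent.R238 (Ell)

noncomputable section

variable {n : ℕ}

theorem hb_of_ho {X F : Type} [NormedAddCommGroup X] [NormedAddCommGroup F] {a M : ℝ} {r : X → F}
    (h : HO a M univ r) : HB a M r :=
  ⟨fun x => h.bdd x trivial, fun x y => h.hol x trivial y trivial⟩

/-- local to global -/
theorem ho_glob {X F : Type} [NormedAddCommGroup X] [NormedAddCommGroup F] {a Q : ℝ}
    (ha : 0 ≤ a) (ha1 : a ≤ 1) {r : X → F} (h : ∀ c, HO a Q (closedBall c (1 / 2)) r) :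
    HO a (4 * Q) univ r := by
  have hb : ∀ x, ‖r x‖ ≤ Q := fun x => (h x).bdd x (mem_closedBall_self (by norm_num))
  have hQ : 0 ≤ Q := (norm_nonneg _).trans (hb 0)
  refine ⟨fun x _ => (hb x).trans (by linarith), fun x _ y _ => ?_⟩
  have hp : 0 ≤ ‖x - y‖ ^ a := Real.rpow_nonneg (norm_nonneg _) _
  rcases le_or_gt ‖x - y‖ (1 / 2) with hle | hgt
  · refine ((h y).hol x (by rwa [mem_closedBall, dist_eq_norm]) y
      (mem_closedBall_self (by norm_num))).trans ?_
    exact mul_le_mul_of_nonneg_right (by linarith) hp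
  · have h1 : (1 / 2 : ℝ) ≤ ‖x - y‖ ^ a := by
      calc (1 / 2 : ℝ) = (1 / 2) ^ (1 : ℝ) := (Real.rpow_one _).symm
        _ ≤ (1 / 2) ^ a := Real.rpow_le_rpow_of_exponent_ge (by norm_num) (by norm_num) ha1
        _ ≤ _ := Real.rpow_le_rpow (by norm_num) hgt.le ha
    have h2 := (norm_sub_le (r x) (r y)).trans (add_le_add (hb x) (hb y))
    nlinarith

theorem c2a_glob {a Q : ℝ} (ha : 0 ≤ a) (ha1 : a ≤ 1) {z : EE n → ℝ}
    (h : ∀ c, C2A a Q (closedBall c (1 / 2)) z) : C2A a (4 * Q) univ z :=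
  ⟨ho_glob ha ha1 fun c => (h c).h0, ho_glob ha ha1 fun c => (h c).h1,
    ho_glob ha ha1 fun c => (h c).h2⟩

theorem gSch (hM : MaxPStmt) : GSchStmt := by
  intro n a lo hi M ha ha1 hlo hlohi
  obtain ⟨C0, hC0, H⟩ := int_schauder_on n ha ha1 hlo hlohi M one_pos le_rfl
  obtain ⟨C1, hC1, I⟩ := interp (n := n) (r := 1) (ε := 1 / (8 * C0)) ha ha1.le zero_le_one
    (by positivity)
  refine ⟨8 * C0 * (2 + C1), by positivity, fun τ z N hell hτ hz hV hN => ?_⟩
  obtain ⟨V, hV⟩ := hV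
  have hz0 : ∀ x, |z x| ≤ N := hM n lo hi hlo.le τ z N hell hz
    ⟨V, fun x => hV.h0.bdd x trivial⟩ fun x => hN.bdd x trivial
  have step : ∀ W, HB a W (D2 z) → C2A a (4 * C0 * (2 + C1) * N + W / 2) univ z := by
    intro W hW
    have := c2a_glob (z := z) (Q := C0 * (N + (1 / (8 * C0) * W + C1 * N) + N)) ha.le ha1.le
      fun c => by
        have hL := (I z W N c hz hW fun x _ => hz0 x).1
        have h0 : HO a (1 / (8 * C0) * W + C1 * N) (closedBall c 1) z :=
          ⟨fun x hx => hL.h0 x hx, fun x hx y hy => hL.h1 x hx y hy⟩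
        refine H c τ (fun x _ => hell x) (fun i j => (hτ i j).subset (subset_univ _)) univ
          isOpen_univ (subset_univ _) z _ N hz.contDiffOn ⟨W, HO.of_hb hW⟩ ?_ fun x _ => hz0 x
        exact ((hN.subset (subset_univ _)).add h0).congr fun x _ => by ring
    refine this.mono (le_of_eq ?_)
    field_simp
    ring
  have hD := HB.absorb (hb_of_ho hV.h2) fun W hW => hb_of_ho (step W hW).h2
  exact (step _ hD).mono (le_of_eq (by ring))

/-! ### algebra of `D2`, `P2`, `C2A` -/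

theorem diff_fderiv {z : EE n → ℝ} (hz : ContDiff ℝ 2 z) : Differentiable ℝ (fderiv ℝ z) :=
  (hz.fderiv_right (m := 1) (by norm_num)).differentiable (by norm_num)

theorem fderiv_add_fun {z w : EE n → ℝ} (hz : ContDiff ℝ 2 z) (hw : ContDiff ℝ 2 w) :
    fderiv ℝ (fun x => z x + w x) = fun x => fderiv ℝ z x + fderiv ℝ w x :=
  funext fun x => fderiv_fun_add (hz.differentiable (by norm_num) x)
    (hw.differentiable (by norm_num) x)

theorem D2_add_fun {z w : EE n → ℝ} (hz : ContDiff ℝ 2 z) (hw : ContDiff ℝ 2 w) (x : EE n) :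
    D2 (fun x => z x + w x) x = D2 z x + D2 w x := by
  unfold D2
  rw [fderiv_add_fun hz hw]
  exact fderiv_fun_add (diff_fderiv hz x) (diff_fderiv hw x)

theorem D2_neg_fun (z : EE n → ℝ) (x : EE n) : D2 (fun x => -z x) x = -D2 z x := by
  unfold D2
  have : fderiv ℝ (fun x => -z x) = fun x => -fderiv ℝ z x := funext fun x => fderiv_fun_neg
  rw [this, fderiv_fun_neg]

theorem P2_add_fun (τ : EE n → Matrix (Fin n) (Fin n) ℝ) {z w : EE n → ℝ} (hz : ContDiff ℝ 2 z)
    (hw : ContDiff ℝ 2 w) (x : EE n) : P2 τ (fun x => z x + w x) x = P2 τ z x + P2 τ w x := by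
  simp only [P2, D2_add_fun hz hw, ContinuousLinearMap.add_apply, mul_add, Finset.sum_add_distrib]

theorem P2_neg_fun (τ : EE n → Matrix (Fin n) (Fin n) ℝ) (z : EE n → ℝ) (x : EE n) :
    P2 τ (fun x => -z x) x = -P2 τ z x := by
  simp only [P2, D2_neg_fun, ContinuousLinearMap.neg_apply, mul_neg, Finset.sum_neg_distrib]

theorem P2_add_coef (τ σ : EE n → Matrix (Fin n) (Fin n) ℝ) (z : EE n → ℝ) (x : EE n) :
    P2 (fun x => τ x + σ x) z x = P2 τ z x + P2 σ z x := by
  simp only [P2, Matrix.add_apply, add_mul, Finset.sum_add_distrib]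

theorem c2a_add {a P Q : ℝ} {s : Set (EE n)} {z w : EE n → ℝ} (hz : ContDiff ℝ 2 z)
    (hw : ContDiff ℝ 2 w) (h1 : C2A a P s z) (h2 : C2A a Q s w) :
    C2A a (P + Q) s fun x => z x + w x := by
  refine ⟨h1.h0.add h2.h0, ?_, ?_⟩
  · rw [fderiv_add_fun hz hw]; exact h1.h1.add h2.h1
  · exact (h1.h2.add h2.h2).congr fun x _ => D2_add_fun hz hw x

theorem ho_P2 {a δ V : ℝ} {σ : EE n → Matrix (Fin n) (Fin n) ℝ} {w : EE n → ℝ}
    (hσ : ∀ i j, HO a δ univ fun x => σ x i j) (hw : C2A a V univ w) :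
    HO a ((n : ℝ) ^ 2 * (2 * (δ * V))) univ (P2 σ w) :=
  HO.of_hb (HB.sum_sq fun i j => (hb_of_ho (hσ i j)).mul ((hb_of_ho hw.h2).entry i j))

/-- approximate solutions with a uniform bound give a solution -/
theorem sol_of_approx {a V : ℝ} (ha : 0 < a) (τ : EE n → Matrix (Fin n) (Fin n) ℝ)
    {f : EE n → ℝ} (z : ℕ → EE n → ℝ) (hz : ∀ k, ContDiff ℝ 2 (z k))
    (hV : ∀ k, C2A a V univ (z k))
    (hl : ∀ x, Tendsto (fun k => P2 τ (z k) x - z k x) atTop (𝓝 (f x))) :
    ∃ g : EE n → ℝ, ContDiff ℝ 2 g ∧ C2A a V univ g ∧ ∀ x, P2 τ g x - g x = f x := by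
  obtain ⟨ψ, g, hψ, hg, hC, l0, -, l2⟩ := arzela2 n a V ha z hz hV
  refine ⟨g, hg, hC, fun x => tendsto_nhds_unique ?_ ((hl x).comp hψ.tendsto_atTop)⟩
  refine Tendsto.sub ?_ (tlu_tendsto l0 x)
  refine tendsto_finset_sum _ fun i _ => tendsto_finset_sum _ fun j _ => Tendsto.const_mul _ ?_
  have hc : Continuous fun B : EE n →L[ℝ] EE n →L[ℝ] ℝ => B (ee i) (ee j) := by fun_prop
  exact (hc.tendsto _).comp (tlu_tendsto l2 x)

/-- solvability for all Hölder right hand sides -/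
def Solv (a : ℝ) (τ : EE n → Matrix (Fin n) (Fin n) ℝ) : Prop :=
  ∀ (f : EE n → ℝ) (N : ℝ), HO a N univ f →
    ∃ z : EE n → ℝ, ContDiff ℝ 2 z ∧ (∃ V, C2A a V univ z) ∧ ∀ x, P2 τ z x - z x = f x

theorem c2a_zero {a : ℝ} : C2A a 0 univ fun _ : EE n => (0 : ℝ) := by
  refine ⟨HO.of_hb (HB.zero le_rfl), ?_, ?_⟩
  · exact (HO.of_hb (HB.zero le_rfl)).congr fun x _ => by simp
  · exact (HO.of_hb (HB.zero le_rfl)).congr fun x _ => by simp

/-- one step of the continuity method -/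
theorem Solv.perturb {a C δ : ℝ} (ha : 0 < a) (hC : 0 ≤ C)
    {τ σ : EE n → Matrix (Fin n) (Fin n) ℝ} (hS : Solv a τ)
    (hE : ∀ (z : EE n → ℝ) (N : ℝ), ContDiff ℝ 2 z → (∃ V, C2A a V univ z) →
      HO a N univ (fun x => P2 τ z x - z x) → C2A a (C * N) univ z)
    (hσ : ∀ i j, HO a δ univ fun x => σ x i j) (hδ : (n : ℝ) ^ 2 * (2 * (δ * C)) ≤ 1 / 2) :
    Solv a fun x => τ x + σ x := by
  intro f N hN
  have hN0 : 0 ≤ N := hN.nonneg (mem_univ 0)
  have key : ∀ m : ℕ, ∃ z : EE n → ℝ, ContDiff ℝ 2 z ∧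
      C2A a (2 * C * N * (1 - (1 / 2) ^ m)) univ z ∧
      HO a (N * (1 / 2) ^ m) univ fun x => f x - (P2 (fun x => τ x + σ x) z x - z x) := by
    intro m
    induction m with
    | zero =>
      refine ⟨fun _ => 0, contDiff_const, by simpa using c2a_zero, ?_⟩
      refine (hN.mono (by simp)).congr fun x _ => ?_
      simp [P2, D2]
    | succ m ih =>
      obtain ⟨z, hz, hzC, hr⟩ := ih
      obtain ⟨w, hw, hwV, hwe⟩ := hS _ _ hr
      have hwC := hE w _ hw hwV (hr.congr fun x _ => hwe x)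
      refine ⟨fun x => z x + w x, hz.add hw, (c2a_add hz hw hzC hwC).mono (le_of_eq (by ring)), ?_⟩
      refine ((ho_P2 hσ hwC).neg.mono ?_).congr fun x _ => ?_
      · have : 0 ≤ N * (1 / 2) ^ m := by positivity
        calc (n : ℝ) ^ 2 * (2 * (δ * (C * (N * (1 / 2) ^ m))))
            = (n : ℝ) ^ 2 * (2 * (δ * C)) * (N * (1 / 2) ^ m) := by ring
          _ ≤ 1 / 2 * (N * (1 / 2) ^ m) := mul_le_mul_of_nonneg_right hδ this
          _ = _ := by ring
      · have := hwe x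
        rw [P2_add_fun _ hz hw, P2_add_coef τ σ w]
        linarith
  choose z hz hzC hr using key
  obtain ⟨g, hg, hgC, hge⟩ := sol_of_approx (V := 2 * C * N) (f := f) ha (fun x => τ x + σ x) z hz
    (fun k => (hzC k).mono (by
      have : 0 ≤ 2 * C * N * (1 / 2) ^ k := by positivity
      linarith))
    fun x => by
      have h0 : Tendsto (fun k : ℕ => N * (1 / 2 : ℝ) ^ k) atTop (𝓝 0) := by
        simpa using (tendsto_pow_atTop_nhds_zero_of_lt_one (r := (1 / 2 : ℝ)) (by norm_num)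
          (by norm_num)).const_mul N
      have h1 := squeeze_zero_norm (fun k => (hr k).bdd x trivial) h0
      simpa using h1.const_sub (f x)
  exact ⟨g, hg, ⟨_, hgC⟩, hge⟩

theorem ell_mono {lo hi lo' hi' : ℝ} {A : Matrix (Fin n) (Fin n) ℝ} (h : Ell lo hi A)
    (h1 : lo' ≤ lo) (h2 : hi ≤ hi') : Ell lo' hi' A := by
  refine ⟨h.1, fun z => ?_⟩
  have hz : 0 ≤ ∑ i, z i ^ 2 := Finset.sum_nonneg fun i _ => sq_nonneg _
  exact ⟨(mul_le_mul_of_nonneg_right h1 hz).trans (h.2 z).1,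
    (h.2 z).2.trans (mul_le_mul_of_nonneg_right h2 hz)⟩

theorem ell_one : Ell 1 1 (1 : Matrix (Fin n) (Fin n) ℝ) := by
  refine ⟨fun i j => by simp [Matrix.one_apply, eq_comm], fun z => ?_⟩
  simp [Matrix.one_apply, sq]

theorem ho_const_mul {X : Type} [NormedAddCommGroup X] {a M : ℝ} {s : Set X} {r : X → ℝ}
    (h : HO a M s r) (c : ℝ) : HO a (|c| * M) s fun x => c * r x where
  bdd x hx := by
    rw [norm_mul]; exact mul_le_mul_of_nonneg_left (h.bdd x hx) (abs_nonneg c)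
  hol x hx y hy := by
    rw [← mul_sub, norm_mul, mul_assoc]
    exact mul_le_mul_of_nonneg_left (h.hol x hx y hy) (abs_nonneg c)

theorem solve (hG : GSchStmt) (h0 : Solve0Stmt) : SolveStmt := by
  intro n a lo hi M ha ha1 hlo hlohi τ f N hell hτ hN
  obtain ⟨C, hC, hE⟩ := hG n a (min lo 1) (max hi 1) (|M| + 2) ha ha1 (by positivity)
    ((min_le_right _ _).trans (le_max_right _ _))
  have hσ : ∀ i j, HO a (|M| + 1) univ fun x => τ x i j - (1 : Matrix (Fin n) (Fin n) ℝ) i j := by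
    intro i j
    refine (((hτ i j).add (HO.of_hb (HB.const (-(1 : Matrix (Fin n) (Fin n) ℝ) i j)))).mono
      (add_le_add (le_abs_self M) ?_)).congr fun x _ => by ring
    rw [norm_neg, Matrix.one_apply]
    split_ifs <;> simp
  obtain ⟨K, hK⟩ := exists_nat_ge (4 * (n : ℝ) ^ 2 * (|M| + 1) * C + 1)
  have hK0 : (0 : ℝ) < K := lt_of_lt_of_le (by positivity) hK
  have key : ∀ m : ℕ, m ≤ K →
      Solv a fun x => (1 : Matrix (Fin n) (Fin n) ℝ) + ((m : ℝ) / K) • (τ x - 1) := by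
    intro m
    induction m with
    | zero => intro _; simpa [Solv] using h0 n a ha ha1
    | succ m ih =>
      intro hm
      have hm0 : (0 : ℝ) ≤ m / K := by positivity
      have hm1 : (m : ℝ) / K ≤ 1 := by
        rw [div_le_one hK0]; exact_mod_cast (Nat.le_succ m).trans hm
      have h := (ih ((Nat.le_succ m).trans hm)).perturb (δ := |1 / (K : ℝ)| * (|M| + 1))
        (σ := fun x => (1 / (K : ℝ)) • (τ x - 1)) ha hC.le
        (fun z N => hE _ z N (fun x => ?_) fun i j => ?_)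
        (fun i j => (ho_const_mul (hσ i j) _).congr fun x _ => by simp) ?_
      · convert h using 2 with x
        push_cast
        rw [add_div, add_smul, add_assoc]
      · have := ell_conv (ell_mono (hell x) (min_le_left lo 1) (le_max_left hi 1))
          (ell_mono ell_one (min_le_right lo 1) (le_max_right hi 1)) hm0 hm1
        convert this using 1
        rw [smul_sub, sub_smul, one_smul]
        abel
      · refine (((HO.of_hb (HB.const ((1 : Matrix (Fin n) (Fin n) ℝ) i j))).add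
          (ho_const_mul (hσ i j) (m / K))).mono ?_).congr fun x _ => by simp
        have h1 : ‖(1 : Matrix (Fin n) (Fin n) ℝ) i j‖ ≤ 1 := by
          rw [Matrix.one_apply]
          split_ifs <;> simp
        rw [abs_of_nonneg hm0]
        have := mul_le_mul_of_nonneg_right hm1 (by positivity : 0 ≤ |M| + 1)
        linarith
      · rw [abs_of_pos (by positivity)]
        have e : (n : ℝ) ^ 2 * (2 * (1 / K * (|M| + 1) * C))
            = (4 * (n : ℝ) ^ 2 * (|M| + 1) * C) / K * (1 / 2) := by ring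
        rw [e]
        have : (4 * (n : ℝ) ^ 2 * (|M| + 1) * C) / K ≤ 1 := by
          rw [div_le_one hK0]; linarith
        linarith
  have := key K le_rfl f N hN
  simpa [div_self hK0.ne'] using this

/-- uniqueness of bounded solutions -/
theorem sol_unique (hM : MaxPStmt) {lo hi : ℝ} (hlo : 0 ≤ lo)
    {τ : EE n → Matrix (Fin n) (Fin n) ℝ} (hell : ∀ x, Ell lo hi (τ x)) {z w : EE n → ℝ}
    (hz : ContDiff ℝ 2 z) (hw : ContDiff ℝ 2 w) (bz : ∃ B, ∀ x, |z x| ≤ B)
    (bw : ∃ B, ∀ x, |w x| ≤ B) (h : ∀ x, P2 τ z x - z x = P2 τ w x - w x) : z = w := by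
  obtain ⟨B, hB⟩ := bz
  obtain ⟨B', hB'⟩ := bw
  have := hM n lo hi hlo τ (fun x => z x + -w x) 0 hell (hz.add hw.neg)
    ⟨B + B', fun x => (abs_add_le _ _).trans (add_le_add (hB x) (by rw [abs_neg]; exact hB' x))⟩
    fun x => by
      rw [P2_add_fun τ hz hw.neg, P2_neg_fun]
      have := h x
      rw [abs_nonpos_iff]
      linarith
  funext x
  have := abs_nonpos_iff.1 (this x)
  linarith

theorem D2_comp_add (z : EE n → ℝ) (p x : EE n) : D2 (fun y => z (y + p)) x = D2 z (x + p) := by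
  unfold D2
  have : fderiv ℝ (fun y => z (y + p)) = fun y => fderiv ℝ z (y + p) :=
    funext fun y => fderiv_comp_add_right p
  rw [this, fderiv_comp_add_right p]

/-- periodic data give periodic solutions -/
theorem sol_periodic (hM : MaxPStmt) {lo hi : ℝ} (hlo : 0 ≤ lo)
    {τ : EE n → Matrix (Fin n) (Fin n) ℝ} (hell : ∀ x, Ell lo hi (τ x)) {z f : EE n → ℝ}
    (hz : ContDiff ℝ 2 z) (bz : ∃ B, ∀ x, |z x| ≤ B) (h : ∀ x, P2 τ z x - z x = f x) {p : EE n}
    (hτ : ∀ x, τ (x + p) = τ x) (hf : ∀ x, f (x + p) = f x) (x : EE n) : z (x + p) = z x := by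
  obtain ⟨B, hB⟩ := bz
  refine congrFun (sol_unique hM hlo hell (z := fun y => z (y + p))
    (hz.comp (contDiff_id.add contDiff_const)) hz ⟨B, fun y => hB _⟩ ⟨B, hB⟩ fun y => ?_) x
  rw [h y, ← hf y, ← h (y + p)]
  simp only [P2, D2_comp_add, hτ]

end

end Crest.Agent.NLib.Ell
end

-- ▼ part NLib/Ell/Solve0
section

/-!
# Solvability of `Δ z - z = f` for Hölder `f` (helper16)

Schwartz data: Fourier multiplier.  General data: cut off, mollify, pass to the limit.
-/

set_option autoImplicit false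
open MeasureTheory Metric Set Filter Topology
open scoped ContDiff SchwartzMap Convolution Laplacian FourierTransform

namespace Crest.Agent.NLib.Ell

open Crest.Agent.R238.Sch Crest.Agent.R273.SchA_152 Crest.Agent.R273.SchD_152
open Crest.Agent.R273.SchB_152 (P2)
open Crest.Agent.R238 (Ell)

noncomputable section

variable {n : ℕ}

theorem exists_schwartz_sol (F : 𝓢(EE n, ℂ)) : ∃ Z : 𝓢(EE n, ℂ), Δ Z - Z = F := by
  let m : EE n → ℝ := fun ξ => -(1 + ‖(2 * Real.pi) • ξ‖ ^ 2) ^ (-1 : ℝ)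
  have hm : m.HasTemperateGrowth :=
    ((Function.hasTemperateGrowth_one_add_norm_sq_rpow (EE n) (-1)).comp
      ((2 * Real.pi) • ContinuousLinearMap.id ℝ (EE n)).hasTemperateGrowth).neg
  have hn : (fun ξ : EE n => ‖ξ‖ ^ 2).HasTemperateGrowth := by fun_prop
  refine ⟨SchwartzMap.fourierMultiplierCLM ℂ m F, ?_⟩
  rw [SchwartzMap.laplacian_eq_fourierMultiplierCLM,
    SchwartzMap.fourierMultiplierCLM_fourierMultiplierCLM_apply hn hm,
    ← ContinuousLinearMap.smul_apply, ← SchwartzMap.fourierMultiplierCLM_smul (hn.mul hm)]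
  have h2 : ∀ i ∈ (Finset.univ : Finset (Fin 2)),
      (![-(2 * Real.pi) ^ 2 • ((fun ξ : EE n => ‖ξ‖ ^ 2) * m), (-1 : ℝ) • m] i).HasTemperateGrowth := by
    intro i _
    fin_cases i
    · exact (Function.HasTemperateGrowth.const _).mul (hn.mul hm)
    · exact (Function.HasTemperateGrowth.const _).mul hm
  have h3 := SchwartzMap.fourierMultiplierCLM_sum ℂ h2
  have h4 : (fun ξ : EE n => ∑ i ∈ (Finset.univ : Finset (Fin 2)),
      (![-(2 * Real.pi) ^ 2 • ((fun ξ : EE n => ‖ξ‖ ^ 2) * m), (-1 : ℝ) • m] i) ξ)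
      = fun _ => (1 : ℝ) := by
    funext ξ
    have hp : 0 < 1 + ‖(2 * Real.pi) • ξ‖ ^ 2 := by positivity
    have e : ‖(2 * Real.pi) • ξ‖ ^ 2 = (2 * Real.pi) ^ 2 * ‖ξ‖ ^ 2 := by
      rw [norm_smul, mul_pow, Real.norm_eq_abs, sq_abs]
    simp only [Fin.sum_univ_two, Matrix.cons_val_zero, Matrix.cons_val_one, Pi.smul_apply,
      Pi.mul_apply, smul_eq_mul, m, Real.rpow_neg_one]
    rw [e] at hp ⊢
    field_simp
    ring
  rw [h4, SchwartzMap.fourierMultiplierCLM_const, Fin.sum_univ_two] at h3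
  simp only [Matrix.cons_val_zero, Matrix.cons_val_one] at h3
  rw [SchwartzMap.fourierMultiplierCLM_smul hm] at h3
  have h5 := congrArg (fun L => L F) h3
  simp only [one_smul, ContinuousLinearMap.id_apply, ContinuousLinearMap.add_apply,
    neg_smul (1 : ℝ), ContinuousLinearMap.neg_apply] at h5
  rw [sub_eq_add_neg]
  exact h5.symm

theorem P2_one_eq (z : EE n → ℝ) (x : EE n) : P2 (fun _ => 1) z x = Δ z x := by
  rw [InnerProductSpace.laplacian_eq_iteratedFDeriv_orthonormalBasis z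
    (EuclideanSpace.basisFun (Fin n) ℝ)]
  simp [P2, Matrix.one_apply, iteratedFDeriv_two_apply, D2, ee]

/-- bounded with bounded derivative implies Hölder -/
theorem hb_of_fderiv {F : Type} [NormedAddCommGroup F] [NormedSpace ℝ F] {f : EE n → F} {a B0 B1 : ℝ}
    (ha : 0 < a) (ha1 : a ≤ 1) (hf : Differentiable ℝ f) (hB0 : ∀ x, ‖f x‖ ≤ B0)
    (hB1 : ∀ x, ‖fderiv ℝ f x‖ ≤ B1) : HB a (2 * B0 + B1) f := by
  have h0 : 0 ≤ B0 := (norm_nonneg _).trans (hB0 0)
  have h1 : 0 ≤ B1 := le_trans (norm_nonneg (fderiv ℝ f 0)) (hB1 0)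
  refine ⟨fun x => (hB0 x).trans (by linarith), fun x y => ?_⟩
  have hlip : ‖f x - f y‖ ≤ B1 * ‖x - y‖ :=
    (convex_univ : Convex ℝ (univ : Set (EE n))).norm_image_sub_le_of_norm_fderiv_le
      (fun w _ => hf w) (fun w _ => hB1 w) (mem_univ y) (mem_univ x)
  have hb : ‖f x - f y‖ ≤ 2 * B0 := by
    have := norm_sub_le (f x) (f y)
    linarith [hB0 x, hB0 y]
  have hp : 0 ≤ ‖x - y‖ ^ a := Real.rpow_nonneg (norm_nonneg _) _
  rcases le_total ‖x - y‖ 1 with h | h
  · have h2 : ‖x - y‖ ≤ ‖x - y‖ ^ a := by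
      rcases (norm_nonneg (x - y)).eq_or_lt with h0' | h0'
      · rw [← h0']; exact Real.rpow_nonneg le_rfl _
      · calc ‖x - y‖ = ‖x - y‖ ^ (1 : ℝ) := (Real.rpow_one _).symm
          _ ≤ ‖x - y‖ ^ a := Real.rpow_le_rpow_of_exponent_ge h0' h ha1
    nlinarith [mul_nonneg h0 hp, mul_le_mul_of_nonneg_left h2 h1]
  · have h2 : 1 ≤ ‖x - y‖ ^ a := Real.one_le_rpow h ha.le
    nlinarith [mul_nonneg h1 hp]

theorem c2a_schwartz {a : ℝ} (ha : 0 < a) (ha1 : a ≤ 1) (z : 𝓢(EE n, ℝ)) :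
    ∃ V, C2A a V univ z := by
  have hb : ∀ {F : Type} [NormedAddCommGroup F] [NormedSpace ℝ F] (w : 𝓢(EE n, F)),
      ∃ V, HB a V w := by
    intro F _ _ w
    obtain ⟨B0, -, h0⟩ := w.decay 0 0
    obtain ⟨B1, -, h1⟩ := w.decay 0 1
    exact ⟨_, hb_of_fderiv (B0 := B0) (B1 := B1) ha ha1 w.differentiable
      (fun x => by simpa using h0 x) fun x => by simpa [norm_iteratedFDeriv_one] using h1 x⟩
  obtain ⟨V0, h0⟩ := hb z
  obtain ⟨V1, h1⟩ := hb (SchwartzMap.fderivCLM ℝ _ _ z)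
  obtain ⟨V2, h2⟩ := hb (SchwartzMap.fderivCLM ℝ _ _ (SchwartzMap.fderivCLM ℝ _ _ z))
  have e1 : (SchwartzMap.fderivCLM ℝ _ _ z : EE n → _) = fderiv ℝ z := by
    funext x; simp
  have e2 : (SchwartzMap.fderivCLM ℝ _ _ (SchwartzMap.fderivCLM ℝ _ _ z) : EE n → _)
      = fderiv ℝ (fderiv ℝ z) := by
    funext x; rw [SchwartzMap.fderivCLM_apply, e1]
  rw [e1] at h1
  rw [e2] at h2
  have := h0.nonneg
  have := h1.nonneg
  have := h2.nonneg
  exact ⟨V0 + V1 + V2, HO.of_hb (h0.mono (by linarith)), HO.of_hb (h1.mono (by linarith)),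
    HO.of_hb (h2.mono (by linarith))⟩

/-- solvability for one right hand side -/
def Sol1 (a : ℝ) (f : EE n → ℝ) : Prop :=
  ∃ z : EE n → ℝ, ContDiff ℝ 2 z ∧ (∃ V, C2A a V univ z) ∧ ∀ x, P2 (fun _ => 1) z x - z x = f x

theorem sol1_test {a : ℝ} (ha : 0 < a) (ha1 : a ≤ 1) {f : EE n → ℝ} (hf : ContDiff ℝ ∞ f)
    (hc : HasCompactSupport f) : Sol1 a f := by
  obtain ⟨Z, hZ⟩ := exists_schwartz_sol
    (SchwartzMap.postcompCLM Complex.ofRealCLM (hc.toSchwartzMap hf))
  let z : 𝓢(EE n, ℝ) := SchwartzMap.postcompCLM Complex.reCLM Z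
  refine ⟨z, z.smooth 2, c2a_schwartz ha ha1 z, fun x => ?_⟩
  have h1 := congrArg (fun W : 𝓢(EE n, ℂ) => (W x).re) hZ
  have h2 : Δ (z : EE n → ℝ) x = (Δ Z x).re := by
    rw [SchwartzMap.laplacian_apply]
    exact (Z.smooth 2).contDiffAt.laplacian_CLM_comp_left (l := Complex.reCLM)
  rw [P2_one_eq, h2]
  simpa [z] using h1

theorem sol1_lim (hG : GSchStmt) {a N : ℝ} (ha : 0 < a) (ha1 : a < 1) {f : EE n → ℝ}
    (g : ℕ → EE n → ℝ) (hg : ∀ k, Sol1 a (g k)) (hN : ∀ k, HO a N univ (g k))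
    (hl : ∀ x, Tendsto (fun k => g k x) atTop (𝓝 (f x))) : Sol1 a f := by
  obtain ⟨C, -, hE⟩ := hG n a 1 1 1 ha ha1 one_pos le_rfl
  choose z hz hV he using hg
  obtain ⟨w, hw, hC, hwe⟩ := sol_of_approx (V := C * N) (f := f) ha (fun _ => 1) z hz
    (fun k => hE _ _ N (fun _ => ell_one) (fun i j => (HO.of_hb (HB.const _)).mono (by
      rw [Matrix.one_apply]; split_ifs <;> simp)) (hz k) (hV k) ((hN k).congr fun x _ => he k x))
    fun x => by simpa only [he] using hl x
  exact ⟨w, hw, ⟨_, hC⟩, hwe⟩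

/-- mollification keeps Hölder bounds -/
theorem hb_mollify {a N : ℝ} {f : EE n → ℝ} (hc : Continuous f) (hf : HB a N f)
    (φ : ContDiffBump (0 : EE n)) :
    HB a N (φ.normed volume ⋆[ContinuousLinearMap.lsmul ℝ ℝ, volume] f) := by
  have hi : ∀ x, Integrable fun t => φ.normed volume t • f (x - t) := fun x =>
    (φ.continuous_normed.smul (hc.comp (continuous_const.sub continuous_id))).integrable_of_hasCompactSupport
      φ.hasCompactSupport_normed.smul_right
  have key : ∀ (g : EE n → ℝ) (B : ℝ), (∀ t, ‖g t‖ ≤ B) →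
      ‖∫ t, φ.normed volume t • g t‖ ≤ B := by
    intro g B hB
    calc ‖∫ t, φ.normed volume t • g t‖ ≤ ∫ t, φ.normed volume t * B := by
          refine norm_integral_le_of_norm_le (φ.integrable_normed.mul_const B)
            (Eventually.of_forall fun t => ?_)
          rw [norm_smul, Real.norm_of_nonneg (φ.nonneg_normed t)]
          exact mul_le_mul_of_nonneg_left (hB t) (φ.nonneg_normed t)
      _ = B := by rw [integral_mul_const, φ.integral_normed, one_mul]
  refine ⟨fun x => key _ _ fun t => hf.bdd _, fun x y => ?_⟩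
  rw [convolution_lsmul, convolution_lsmul, ← integral_sub (hi x) (hi y)]
  simp only [← smul_sub]
  refine key _ _ fun t => ?_
  simpa using hf.hol (x - t) (y - t)

theorem continuous_of_hb {X F : Type} [NormedAddCommGroup X] [NormedAddCommGroup F] {a N : ℝ}
    (ha : 0 < a) {f : X → F} (hf : HB a N f) : Continuous f :=
  continuous_of_modulus (tendsto_holder ha N) hf.hol

theorem sol1_cpt (hG : GSchStmt) {a N : ℝ} (ha : 0 < a) (ha1 : a < 1) {f : EE n → ℝ}
    (hf : HB a N f) (hc : HasCompactSupport f) : Sol1 a f := by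
  have hcont := continuous_of_hb ha hf
  let φ : ℕ → ContDiffBump (0 : EE n) := fun k =>
    ⟨1 / ((k : ℝ) + 1) / 2, 1 / ((k : ℝ) + 1), by positivity, half_lt_self (by positivity)⟩
  refine sol1_lim hG ha ha1
    (fun k => (φ k).normed volume ⋆[ContinuousLinearMap.lsmul ℝ ℝ, volume] f)
    (fun k => sol1_test ha ha1.le
      ((φ k).hasCompactSupport_normed.contDiff_convolution_left _ (φ k).contDiff_normed
        hcont.locallyIntegrable)
      ((φ k).hasCompactSupport_normed.convolution _ hc))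
    (fun k => HO.of_hb (hb_mollify hcont hf (φ k))) fun x => ?_
  exact ContDiffBump.convolution_tendsto_right_of_continuous
    tendsto_one_div_add_atTop_nhds_zero_nat hcont x

theorem solve0' (hG : GSchStmt) : Solve0Stmt := by
  intro n a ha ha1 f N hN
  let χ : ContDiffBump (0 : EE n) := ⟨1, 2, one_pos, one_lt_two⟩
  obtain ⟨X, hX⟩ := HB.of_compactSupport (f := χ) ha ha1.le χ.contDiff χ.hasCompactSupport
  have hs : ∀ k : ℕ, HB a X fun x : EE n => χ ((1 / ((k : ℝ) + 1)) • x) := by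
    intro k
    refine ⟨fun x => hX.bdd _, fun x y => (hX.hol _ _).trans ?_⟩
    refine mul_le_mul_of_nonneg_left (Real.rpow_le_rpow (norm_nonneg _) ?_ ha.le) hX.nonneg
    rw [← smul_sub, norm_smul, Real.norm_of_nonneg (by positivity)]
    refine mul_le_of_le_one_left (norm_nonneg _) ?_
    rw [div_le_one (by positivity)]
    linarith [k.cast_nonneg (α := ℝ)]
  refine sol1_lim hG ha ha1 (fun k x => χ ((1 / ((k : ℝ) + 1)) • x) * f x)
    (fun k => sol1_cpt hG ha ha1 ((hs k).mul (hb_of_ho hN)) (HasCompactSupport.mul_right ?_))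
    (fun k => HO.of_hb ((hs k).mul (hb_of_ho hN))) fun x => ?_
  · exact χ.hasCompactSupport.comp_smul (by positivity)
  · have h1 : Tendsto (fun k : ℕ => (1 / ((k : ℝ) + 1)) • x) atTop (𝓝 0) := by
      simpa using (tendsto_one_div_add_atTop_nhds_zero_nat (𝕜 := ℝ)).smul_const x
    have h2 := (χ.continuous.tendsto 0).comp h1
    rw [χ.one_of_mem_closedBall (mem_closedBall_self zero_le_one)] at h2
    simpa using h2.mul_const (f x)


/-- everything of T2 from the maximum principle -/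
theorem solve_of_maxP (hM : MaxPStmt) : SolveStmt := solve (gSch hM) (solve0' (gSch hM))

end

end Crest.Agent.NLib.Ell
end

-- ▼ part NLib/Ell/OY

/-!
# Omori-Yau points, interpolation, maximum principle (helper16)
-/

set_option autoImplicit false
open MeasureTheory Metric Set Filter Topology
open scoped ContDiff

namespace Crest.Agent.NLib.Ell

open Crest.Agent.R238.Sch Crest.Agent.R273.SchA_152 Crest.Agent.R273.SchD_152
open Crest.Agent.R273.SchB_152 (P2)
open Crest.Agent.R238 (Ell)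

noncomputable section

variable {n : ℕ}

theorem fderiv_quad (c : ℝ) (x0 y : EE n) :
    fderiv ℝ (fun y : EE n => c * ‖y + -x0‖ ^ 2) y = (2 * c) • innerSL ℝ (y + -x0) := by
  have h := R238.MaxP.fderiv_radial (E := EE n) (F := fun t => c * t) (F1 := fun _ => c)
    fun t _ => by simpa using (hasDerivAt_id t).const_mul c
  rw [fderiv_comp_add_right (f := fun y : EE n => c * ‖y‖ ^ 2) (-x0), h]

theorem D2_quad (c : ℝ) (x0 y v : EE n) :
    D2 (fun y : EE n => c * ‖y + -x0‖ ^ 2) y v v = 2 * c * ‖v‖ ^ 2 := by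
  rw [D2_comp_add (fun y : EE n => c * ‖y‖ ^ 2) (-x0)]
  have h := R238.MaxP.fderiv_fderiv_radial (E := EE n) (F := fun t => c * t) (F1 := fun _ => c)
    (F2 := fun _ => 0) (fun t _ => by simpa using (hasDerivAt_id t).const_mul c)
    (fun t _ => hasDerivAt_const t c) (y + -x0) v v
  unfold D2
  rw [h, real_inner_self_eq_norm_sq]
  ring

theorem oy : OYStmt := by
  intro n z x0 M δ ρ hρ hz hM h0
  obtain ⟨W, u, hW, hRW, -, hu, he⟩ := exists_ext hρ isOpen_ball
    (closedBall_subset_ball (by linarith)) hz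
  have hδ : 0 < δ := by linarith [hM x0 (mem_closedBall_self hρ.le)]
  set c := -(δ / ρ ^ 2) with hc
  have hq : ContDiff ℝ 2 fun y : EE n => c * ‖y + -x0‖ ^ 2 :=
    contDiff_const.mul ((contDiff_norm_sq ℝ).comp (contDiff_id.add contDiff_const))
  have hw := hu.add hq
  obtain ⟨x, hx, hmax⟩ := (isCompact_closedBall x0 ρ).exists_isMaxOn
    ⟨x0, mem_closedBall_self hρ.le⟩ hw.continuous.continuousOn
  have h1 : z x0 ≤ z x + c * ‖x - x0‖ ^ 2 := by
    have := hmax (mem_closedBall_self hρ.le)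
    simp only [mem_setOf_eq, add_neg_cancel, norm_zero] at this
    rw [he x (hRW hx), he x0 (hRW (mem_closedBall_self hρ.le)), ← sub_eq_add_neg] at this
    simpa using this
  have hx' : ‖x - x0‖ ≤ ρ := by rwa [mem_closedBall, dist_eq_norm] at hx
  have hlt : ‖x - x0‖ < ρ := by
    refine lt_of_le_of_ne hx' fun h => ?_
    rw [h, hc] at h1
    have : δ / ρ ^ 2 * ρ ^ 2 = δ := by field_simp
    linarith [hM x hx]
  have hloc : IsLocalMax (fun y => u y + c * ‖y + -x0‖ ^ 2) x :=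
    hmax.isLocalMax (closedBall_mem_nhds_of_mem (by rwa [mem_ball, dist_eq_norm]))
  have hev : u =ᶠ[𝓝 x] z := eventually_of_mem (hW.mem_nhds (hRW hx)) he
  have hc0 : 0 ≤ δ / ρ ^ 2 := by positivity
  refine ⟨x, hlt, ?_, ?_, fun v => ?_⟩
  · have : 0 ≤ δ / ρ ^ 2 * ‖x - x0‖ ^ 2 := by positivity
    rw [hc] at h1
    linarith
  · have h2 := hloc.fderiv_eq_zero
    rw [fderiv_add_fun hu hq] at h2
    simp only [fderiv_quad] at h2
    rw [← hev.fderiv_eq, eq_neg_of_add_eq_zero_left h2, norm_neg, norm_smul, innerSL_apply_norm,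
      ← sub_eq_add_neg, hc, Real.norm_eq_abs, mul_neg, abs_neg, abs_of_nonneg (by positivity)]
    calc 2 * (δ / ρ ^ 2) * ‖x - x0‖ ≤ 2 * (δ / ρ ^ 2) * ρ := by gcongr
      _ = 2 * δ / ρ := by field_simp
  · have h2 : D2 (fun y => u y + c * ‖y + -x0‖ ^ 2) x v v ≤ 0 :=
      R238.MaxP.second_deriv_nonpos_of_isLocalMax hw hloc v
    rw [D2_add_fun hu hq, add_apply, add_apply, D2_quad, D2_congr_open hW he (hRW hx), hc] at h2
    have : 2 * δ / ρ ^ 2 * ‖v‖ ^ 2 = 2 * (δ / ρ ^ 2) * ‖v‖ ^ 2 := by ring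
    linarith

theorem interp : InterpStmt := by
  intro n F _ _ z x r M0 M2 hr hz h0 h2
  have hsub : closedBall x r ⊆ ball x (2 * r) := closedBall_subset_ball (by linarith)
  have hc : ∀ y ∈ closedBall x r, ContDiffAt ℝ 2 z y := fun y hy =>
    hz.contDiffAt (isOpen_ball.mem_nhds (hsub hy))
  have hx : x ∈ closedBall x r := mem_closedBall_self hr.le
  have hM0 : 0 ≤ M0 := (norm_nonneg _).trans (h0 x hx)
  have hM2 : 0 ≤ M2 := le_trans (norm_nonneg (fderiv ℝ (fderiv ℝ z) x)) (h2 x hx)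
  have hL : ∀ y ∈ closedBall x r, ‖fderiv ℝ z y - fderiv ℝ z x‖ ≤ M2 * r := fun y hy =>
    ((convex_closedBall x r).norm_image_sub_le_of_norm_fderiv_le (f := fderiv ℝ z)
      (fun w hw => ((hc w hw).fderiv_right (m := 1) (by norm_num)).differentiableAt one_ne_zero)
      h2 hx hy).trans (mul_le_mul_of_nonneg_left (by rwa [mem_closedBall, dist_eq_norm] at hy) hM2)
  have := opNorm_le_of_sphere (fderiv ℝ z x) (C := 2 * M0 + M2 * r * r) hr (by positivity)
    fun e he => by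
      have hy : x + e ∈ closedBall x r := by simp [he]
      have h3 := (convex_closedBall x r).norm_image_sub_le_of_norm_fderiv_le'
        (fun w hw => (hc w hw).differentiableAt (by norm_num)) hL hx hy
      rw [add_sub_cancel_left, he] at h3
      have h4 := (norm_sub_le (z (x + e)) (z x)).trans (add_le_add (h0 _ hy) (h0 _ hx))
      have h5 := norm_sub_norm_le (fderiv ℝ z x e) (z (x + e) - z x)
      rw [norm_sub_rev (fderiv ℝ z x e)] at h5
      linarith
  refine this.trans (le_of_eq ?_)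
  field_simp

theorem bilin_eq_sum (B : EE n →L[ℝ] EE n →L[ℝ] ℝ) (v w : EE n) :
    B v w = ∑ i, ∑ j, B (ee i) (ee j) * v i * w j := by
  have h : ∀ u : EE n, u = ∑ i, u i • (ee i : EE n) := fun u => by
    simpa [ee] using ((EuclideanSpace.basisFun (Fin n) ℝ).sum_repr u).symm
  conv_lhs => rw [h v, h w]
  simp only [map_sum, map_smul, ContinuousLinearMap.sum_apply, ContinuousLinearMap.smul_apply,
    smul_eq_mul, Finset.mul_sum]
  rw [Finset.sum_comm]
  exact Finset.sum_congr rfl fun i _ => Finset.sum_congr rfl fun j _ => by ring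

theorem ell_diag_le {lo hi : ℝ} {A : Matrix (Fin n) (Fin n) ℝ} (hA : Ell lo hi A) (i : Fin n) :
    A i i ≤ hi := by
  simpa [Pi.single_apply] using (hA.2 (Pi.single i 1)).2

/-- `A : B ≤ ε n hi` if `0 ≤ A ≤ hi` and `B ≤ ε` -/
theorem contr_le {lo hi ε : ℝ} (hlo : 0 ≤ lo) (hε : 0 ≤ ε) {A : Matrix (Fin n) (Fin n) ℝ}
    (hA : Ell lo hi A) (B : EE n →L[ℝ] EE n →L[ℝ] ℝ) (hs : ∀ v w, B v w = B w v)
    (hB : ∀ v, B v v ≤ ε * ‖v‖ ^ 2) : ∑ i, ∑ j, A i j * B (ee i) (ee j) ≤ ε * (n * hi) := by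
  have hP : A.PosSemidef := by
    apply Matrix.PosSemidef.of_dotProduct_mulVec_nonneg
    · rw [Matrix.IsHermitian, Matrix.conjTranspose_eq_transpose_of_trivial]
      ext i j; exact hA.1 j i
    · intro x
      rw [← R238.MaxP.Q_eq]
      exact (mul_nonneg hlo (Finset.sum_nonneg fun i _ => sq_nonneg _)).trans (hA.2 x).1
  have h := R238.MaxP.trace_mul_ge hP (B := Matrix.of fun i j => -B (ee i) (ee j)) (c := -ε)
    (by ext i j; simp [hs (ee i) (ee j)]) fun z => by
      have h1 := hB (WithLp.toLp 2 z)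
      rw [bilin_eq_sum, EuclideanSpace.real_norm_sq_eq] at h1
      simp only [R238.MaxP.Q, Matrix.of_apply, neg_mul, Finset.sum_neg_distrib]
      simpa using h1
  have h2 : A.trace ≤ n * hi := by
    simpa [Matrix.trace] using Finset.sum_le_sum fun i (_ : i ∈ Finset.univ) => ell_diag_le hA i
  have h3 : (A * Matrix.of fun i j => -B (ee i) (ee j)).trace
      = -∑ i, ∑ j, A i j * B (ee i) (ee j) := by
    simp only [Matrix.trace, Matrix.diag, Matrix.mul_apply, Matrix.of_apply, mul_neg,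
      Finset.sum_neg_distrib]
    congr 1
    exact Finset.sum_congr rfl fun i _ => Finset.sum_congr rfl fun j _ => by rw [hs]
  rw [h3] at h
  nlinarith [mul_le_mul_of_nonneg_left h2 hε]

theorem D2_symm {z : EE n → ℝ} {x : EE n} (hz : ContDiffAt ℝ 2 z x) (v w : EE n) :
    D2 z x v w = D2 z x w v :=
  (hz.isSymmSndFDerivAt (by simp)).eq v w

theorem maxP_up {lo hi : ℝ} (hlo : 0 ≤ lo) {τ : EE n → Matrix (Fin n) (Fin n) ℝ} {z : EE n → ℝ}
    {N B : ℝ} (hell : ∀ x, Ell lo hi (τ x)) (hz : ContDiff ℝ 2 z) (hB : ∀ x, z x ≤ B)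
    (h : ∀ x, z x - P2 τ z x ≤ N) (x0 : EE n) : z x0 ≤ N := by
  set δ := B - z x0 + 1 with hδ
  have hδ0 : 0 < δ := by linarith [hB x0]
  have key : ∀ ρ : ℝ, 0 < ρ → z x0 ≤ N + 2 * δ / ρ ^ 2 * (n * hi) := by
    intro ρ hρ
    obtain ⟨x, -, h1, -, h2⟩ := oy n z x0 B δ ρ hρ hz.contDiffOn (fun y _ => hB y) (by linarith)
    have := contr_le hlo (by positivity) (hell x) (D2 z x) (D2_symm hz.contDiffAt) h2
    have h3 := h x
    unfold P2 at h3
    linarith
  have hl : Tendsto (fun ρ : ℝ => N + 2 * δ / ρ ^ 2 * (n * hi)) atTop (𝓝 (N + 0 * (n * hi))) :=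
    ((tendsto_const_nhds.div_atTop (tendsto_pow_atTop two_ne_zero)).mul_const _).const_add _
  simpa using ge_of_tendsto hl ((eventually_gt_atTop 0).mono key)

theorem maxP : MaxPStmt := by
  intro n lo hi hlo τ z N hell hz hB h x
  obtain ⟨B, hB⟩ := hB
  rw [abs_le']
  refine ⟨maxP_up hlo hell hz (fun y => (le_abs_self _).trans (hB y)) (fun y => ?_) x,
    maxP_up (z := fun y => -z y) hlo hell hz.neg (fun y => (neg_le_abs _).trans (hB y))
      (fun y => ?_) x⟩
  · linarith [(abs_le.1 (h y)).1]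
  · rw [P2_neg_fun]; linarith [(abs_le.1 (h y)).2]

theorem gSch' : GSchStmt := gSch maxP

theorem solve_all : SolveStmt := solve_of_maxP maxP

end

end Crest.Agent.NLib.Ell
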