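import Crest.Agent.R202.Moser
import Crest.Agent.R236.Poinc

-- ▼ part NLib/Ell/Defs
section

/-!
# De Giorgi-Nash-Moser theory for `C¹` weak sub/supersolutions with structure conditions
(helper26).  Definitions and elementary operations.

`Sub lam Lam a b U u m F` says: on the open set `U`, `- div F ≤ b |∇u| + a m` weakly, where the
flux `F` satisfies `⟪F, ∇u⟫ ≥ lam |∇u|² - a² m²` and `|F| ≤ Lam |∇u| + a m`.
For `F = A ∇u + f` this covers `div (A ∇ u + f) + ⟪B, ∇u⟫ + c u + g ≥ 0`.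
-/

set_option autoImplicit false
open MeasureTheory Metric Set Filter Topology InnerProductSpace
open scoped NNReal ENNReal RealInnerProductSpace Gradient ContDiff

namespace Crest.Agent.NLib.Ell

open Crest.Agent.R202.Moser

noncomputable section

variable {n : ℕ}

local notation "E" n => EuclideanSpace ℝ (Fin n)

/-- Nonnegative `C¹` test functions with compact support in `U`. -/
structure Test (U : Set (E n)) (φ : (E n) → ℝ) : Prop where
  c1 : ContDiff ℝ 1 φ
  cs : HasCompactSupport φ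
  sub : tsupport φ ⊆ U
  nonneg : ∀ x, 0 ≤ φ x

/-- Weak subsolutions with structure conditions. -/
structure Sub (lam Lam a b : ℝ) (U : Set (E n)) (u m : (E n) → ℝ) (F : (E n) → (E n)) : Prop where
  cu : ContDiffOn ℝ 1 u U
  cm : ContinuousOn m U
  cF : ContinuousOn F U
  m0 : ∀ x ∈ U, 0 ≤ m x
  low : ∀ x ∈ U, lam * ‖∇ u x‖ ^ 2 - a ^ 2 * m x ^ 2 ≤ ⟪F x, ∇ u x⟫
  up : ∀ x ∈ U, ‖F x‖ ≤ Lam * ‖∇ u x‖ + a * m x
  weak : ∀ φ, Test U φ → ∫ x, ⟪F x, ∇ φ x⟫ ≤ ∫ x, (b * ‖∇ u x‖ + a * m x) * φ x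

/-- Weak supersolutions: `- div F ≥ - (b |∇u| + a m)`. -/
def Sup (lam Lam a b : ℝ) (U : Set (E n)) (u m : (E n) → ℝ) (F : (E n) → (E n)) : Prop :=
  Sub lam Lam a b U (fun x => - u x) m (fun x => - F x)

theorem gradient_eq_zero_of_notMem {φ : (E n) → ℝ} {x : E n} (hx : x ∉ tsupport φ) :
    ∇ φ x = 0 := by
  have : fderiv ℝ φ x = 0 := by
    by_contra h
    exact hx (support_fderiv_subset ℝ h)
  simp [gradient, this]

theorem continuousOn_gradient {u : (E n) → ℝ} {U : Set (E n)} (hU : IsOpen U)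
    (hu : ContDiffOn ℝ 1 u U) : ContinuousOn (∇ u) U := by
  unfold gradient
  exact (LinearIsometryEquiv.continuous _).comp_continuousOn
    (hu.continuousOn_fderiv_of_isOpen hU le_rfl)

theorem gradient_congr {u v : (E n) → ℝ} {U : Set (E n)} (hU : IsOpen U)
    (h : ∀ x ∈ U, u x = v x) {x : E n} (hx : x ∈ U) : ∇ u x = ∇ v x := by
  have : u =ᶠ[𝓝 x] v := by filter_upwards [hU.mem_nhds hx] with y hy using h y hy
  simp [gradient, this.fderiv_eq]

theorem gradient_comp {v : (E n) → ℝ} {H : ℝ → ℝ} {H' : ℝ} {x : E n}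
    (hv : DifferentiableAt ℝ v x) (hH : HasDerivAt H H' (v x)) :
    ∇ (fun y => H (v y)) x = H' • ∇ v x := by
  have h1 : HasFDerivAt (fun y => H (v y)) (H' • fderiv ℝ v x) x :=
    hH.comp_hasFDerivAt x hv.hasFDerivAt
  unfold gradient
  rw [h1.fderiv]
  simp

theorem gradient_neg (u : (E n) → ℝ) (x : E n) : ∇ (fun y => - u y) x = - ∇ u x := by
  simp [gradient, fderiv_fun_neg]

theorem diffAt {u : (E n) → ℝ} {U : Set (E n)} (hU : IsOpen U) (hu : ContDiffOn ℝ 1 u U) {x : E n}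
    (hx : x ∈ U) : DifferentiableAt ℝ u x :=
  (hu.contDiffAt (hU.mem_nhds hx)).differentiableAt (by norm_num)

/-- A function that is continuous on `U` and vanishes outside a compact subset is integrable. -/
theorem integrable_of_on {f : (E n) → ℝ} {U K : Set (E n)} (hK : IsCompact K) (hKU : K ⊆ U)
    (hf : ContinuousOn f U) (h0 : ∀ x, x ∉ K → f x = 0) : Integrable f :=
  (integrableOn_iff_integrable_of_support_subset (s := K) fun x hx => by
    by_contra h; exact hx (h0 x h)).1 ((hf.mono hKU).integrableOn_compact hK)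

theorem Test.mono {U V : Set (E n)} {φ : (E n) → ℝ} (h : Test V φ) (hVU : V ⊆ U) : Test U φ :=
  ⟨h.c1, h.cs, h.sub.trans hVU, h.nonneg⟩

theorem Test.int_mul {U : Set (E n)} {φ f : (E n) → ℝ} (h : Test U φ) (hf : ContinuousOn f U) :
    Integrable fun x => f x * φ x :=
  integrable_of_on h.cs.isCompact h.sub (hf.mul h.c1.continuous.continuousOn) fun x hx => by
    rw [image_eq_zero_of_notMem_tsupport hx, mul_zero]

theorem Test.int_inner {U : Set (E n)} {φ : (E n) → ℝ} {F : (E n) → E n} (h : Test U φ)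
    (hF : ContinuousOn F U) : Integrable fun x => ⟪F x, ∇ φ x⟫ :=
  integrable_of_on h.cs.isCompact h.sub (hF.inner (continuous_gradient h.c1).continuousOn)
    fun x hx => by rw [gradient_eq_zero_of_notMem hx, inner_zero_right]

/-- The product of a test function with a nonnegative function that is `C¹` on `U`. -/
theorem Test.mul {U : Set (E n)} (hU : IsOpen U) {φ h : (E n) → ℝ} (hφ : Test U φ)
    (hh : ContDiffOn ℝ 1 h U) (h0 : ∀ x ∈ U, 0 ≤ h x) : Test U fun x => φ x * h x := by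
  have hs : Function.support (fun x => φ x * h x) ⊆ Function.support φ := fun x hx h' =>
    hx (by simp only [h', zero_mul])
  refine ⟨contDiff_mul_of_tsupport (m := 1) hU hφ.c1 hφ.sub hh, hφ.cs.mono hs,
    (closure_mono hs).trans hφ.sub, fun x => ?_⟩
  by_cases hx : x ∈ tsupport φ
  · exact mul_nonneg (hφ.nonneg x) (h0 x (hφ.sub hx))
  · rw [image_eq_zero_of_notMem_tsupport hx, zero_mul]

theorem Test.sq {U : Set (E n)} {φ : (E n) → ℝ} (hφ : Test U φ) : Test U fun x => φ x ^ 2 := by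
  have hs : Function.support (fun x => φ x ^ 2) ⊆ Function.support φ := fun x hx h' =>
    hx (by simp [h'])
  exact ⟨hφ.c1.pow 2, hφ.cs.mono hs, (closure_mono hs).trans hφ.sub, fun x => sq_nonneg _⟩

/-- Rescaling of a weak differential inequality `- div F ≤ G`. -/
theorem weak_scale {U : Set (E n)} {F : (E n) → E n} {G : (E n) → ℝ}
    (h : ∀ φ, Test U φ → ∫ x, ⟪F x, ∇ φ x⟫ ≤ ∫ x, G x * φ x) (x0 : E n) {r : ℝ} (hr : 0 < r)
    {φ : (E n) → ℝ} (hφ : Test ((fun y => x0 + r • y) ⁻¹' U) φ) :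
    ∫ y, ⟪r • F (x0 + r • y), ∇ φ y⟫ ≤ ∫ y, (r ^ 2 * G (x0 + r • y)) * φ y := by
  let ψ : (E n) → ℝ := fun x => φ (r⁻¹ • (x - x0))
  have hψφ : ∀ y, ψ (x0 + r • y) = φ y := fun y => by
    simp only [ψ, add_sub_cancel_left, smul_smul, inv_mul_cancel₀ hr.ne', one_smul]
  let e : (E n) ≃ₜ (E n) :=
    (Homeomorph.subRight x0).trans (Homeomorph.smulOfNeZero r⁻¹ (by positivity))
  have hψe : ψ = φ ∘ e := rfl
  have hts : tsupport ψ = e ⁻¹' tsupport φ := by
    rw [hψe, tsupport, tsupport, Function.support_comp_eq_preimage, e.preimage_closure]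
  have hψ : Test U ψ := by
    refine ⟨hφ.c1.comp (by fun_prop), hψe ▸ hφ.cs.comp_homeomorph e, fun x hx => ?_,
      fun x => hφ.nonneg _⟩
    have h1 : x0 + r • (r⁻¹ • (x - x0)) ∈ U := hφ.sub (hts ▸ hx : x ∈ e ⁻¹' tsupport φ)
    rwa [smul_smul, mul_inv_cancel₀ hr.ne', one_smul, add_sub_cancel] at h1
  have hgφ : ∀ y, ∇ φ y = r • ∇ ψ (x0 + r • y) := fun y => by
    rw [← gradient_affine (hψ.c1.differentiable (by norm_num) _)]
    simp only [hψφ]
  have key := h ψ hψ
  have e1 : ∫ y, ⟪r • F (x0 + r • y), ∇ φ y⟫ = r ^ 2 * ((r ^ n)⁻¹ * ∫ x, ⟪F x, ∇ ψ x⟫) := by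
    rw [← integral_affine (fun x => ⟪F x, ∇ ψ x⟫) x0 hr, ← integral_const_mul]
    refine integral_congr_ae (Eventually.of_forall fun y => ?_)
    simp only [hgφ y, inner_smul_left, inner_smul_right, conj_trivial]
    ring
  have e2 : r ^ 2 * ((r ^ n)⁻¹ * ∫ x, G x * ψ x) = ∫ y, (r ^ 2 * G (x0 + r • y)) * φ y := by
    rw [← integral_affine (fun x => G x * ψ x) x0 hr, ← integral_const_mul]
    simp only [hψφ, mul_assoc]
  rw [e1, ← e2]
  exact mul_le_mul_of_nonneg_left (mul_le_mul_of_nonneg_left key (by positivity)) (sq_nonneg r)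

namespace Sub

variable {lam Lam a b : ℝ} {U : Set (E n)} {u m : (E n) → ℝ} {F : (E n) → E n}

theorem restrict (h : Sub lam Lam a b U u m F) {V : Set (E n)} (hVU : V ⊆ U) :
    Sub lam Lam a b V u m F :=
  ⟨h.cu.mono hVU, h.cm.mono hVU, h.cF.mono hVU, fun x hx => h.m0 x (hVU hx),
    fun x hx => h.low x (hVU hx), fun x hx => h.up x (hVU hx),
    fun φ hφ => h.weak φ (hφ.mono hVU)⟩

/-- Weaken the structure: only the products `a * m` matter. -/
theorem mono (hU : IsOpen U) (h : Sub lam Lam a b U u m F) {lam' Lam' a' b' : ℝ}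
    {m' : (E n) → ℝ} (h1 : lam' ≤ lam) (h2 : Lam ≤ Lam') (h3 : b ≤ b') (ha : 0 ≤ a)
    (cm' : ContinuousOn m' U) (m0' : ∀ x ∈ U, 0 ≤ m' x) (hm : ∀ x ∈ U, a * m x ≤ a' * m' x) :
    Sub lam' Lam' a' b' U u m' F := by
  have hg := (continuousOn_gradient hU h.cu).norm
  refine ⟨h.cu, cm', h.cF, m0', fun x hx => ?_, fun x hx => ?_, fun φ hφ => ?_⟩
  · have e1 := h.low x hx
    have e2 : (a * m x) ^ 2 ≤ (a' * m' x) ^ 2 :=
      pow_le_pow_left₀ (mul_nonneg ha (h.m0 x hx)) (hm x hx) 2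
    have e3 := mul_le_mul_of_nonneg_right h1 (sq_nonneg ‖∇ u x‖)
    rw [mul_pow, mul_pow] at e2
    linarith
  · have e3 := mul_le_mul_of_nonneg_right h2 (norm_nonneg (∇ u x))
    linarith [h.up x hx, hm x hx]
  · refine (h.weak φ hφ).trans (integral_mono
      (hφ.int_mul ((continuousOn_const.mul hg).add (continuousOn_const.mul h.cm)))
      (hφ.int_mul ((continuousOn_const.mul hg).add (continuousOn_const.mul cm'))) fun x => ?_)
    by_cases hx : x ∈ tsupport φ
    · have e3 := mul_le_mul_of_nonneg_right h3 (norm_nonneg (∇ u x))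
      exact mul_le_mul_of_nonneg_right (by linarith [hm x (hφ.sub hx)]) (hφ.nonneg x)
    · simp [image_eq_zero_of_notMem_tsupport hx]

theorem congr (hU : IsOpen U) (h : Sub lam Lam a b U u m F) {u' m' : (E n) → ℝ}
    {F' : (E n) → E n} (hu : ∀ x ∈ U, u' x = u x) (hm : ∀ x ∈ U, m' x = m x)
    (hF : ∀ x ∈ U, F' x = F x) : Sub lam Lam a b U u' m' F' := by
  have hg : ∀ x ∈ U, ∇ u' x = ∇ u x := fun x hx => gradient_congr hU hu hx
  refine ⟨h.cu.congr hu, h.cm.congr hm, h.cF.congr hF, fun x hx => hm x hx ▸ h.m0 x hx,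
    fun x hx => by rw [hg x hx, hm x hx, hF x hx]; exact h.low x hx,
    fun x hx => by rw [hg x hx, hm x hx, hF x hx]; exact h.up x hx, fun φ hφ => ?_⟩
  convert h.weak φ hφ using 2
  · funext x
    by_cases hx : x ∈ tsupport φ
    · rw [hF x (hφ.sub hx)]
    · simp [gradient_eq_zero_of_notMem hx]
  · funext x
    by_cases hx : x ∈ tsupport φ
    · rw [hg x (hφ.sub hx), hm x (hφ.sub hx)]
    · simp [image_eq_zero_of_notMem_tsupport hx]

/-- Adding a constant to `u`. -/
theorem add_const (h : Sub lam Lam a b U u m F) (c : ℝ) :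
    Sub lam Lam a b U (fun x => u x + c) m F := by
  have hg : ∀ x, ∇ (fun x => u x + c) x = ∇ u x := fun x => by simp [gradient, fderiv_add_const]
  exact ⟨h.cu.add contDiffOn_const, h.cm, h.cF, h.m0, fun x hx => by rw [hg]; exact h.low x hx,
    fun x hx => by rw [hg]; exact h.up x hx, fun φ hφ => by simp only [hg]; exact h.weak φ hφ⟩

/-- The basic identity behind all changes of the dependent variable: test with `H(u) φ`. -/
theorem weak_mul (hU : IsOpen U) (h : Sub lam Lam a b U u m F) {H H' : ℝ → ℝ} {S : Set ℝ}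
    (hS : IsOpen S) (huS : ∀ x ∈ U, u x ∈ S) (hH : ∀ s ∈ S, HasDerivAt H (H' s) s)
    (hH' : ContinuousOn H' S) (H0 : ∀ s ∈ S, 0 ≤ H s) {φ : (E n) → ℝ} (hφ : Test U φ) :
    ∫ x, ⟪H (u x) • F x, ∇ φ x⟫ ≤
      ∫ x, ((b * ‖∇ u x‖ + a * m x) * H (u x) - H' (u x) * ⟪F x, ∇ u x⟫) * φ x := by
  have hHc : ContDiffOn ℝ 1 H S := by
    rw [show (1 : WithTop ℕ∞) = 0 + 1 from rfl, contDiffOn_succ_iff_deriv_of_isOpen hS]
    refine ⟨fun s hs => (hH s hs).differentiableAt.differentiableWithinAt, by simp, ?_⟩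
    rw [contDiffOn_zero]
    exact hH'.congr fun s hs => (hH s hs).deriv
  have hHu : ContDiffOn ℝ 1 (fun x => H (u x)) U := hHc.comp h.cu huS
  have hT := hφ.mul hU hHu fun x hx => H0 _ (huS x hx)
  have hg := continuousOn_gradient hU h.cu
  have c1 : ContinuousOn (fun x => H' (u x) * ⟪F x, ∇ u x⟫) U :=
    (hH'.comp h.cu.continuousOn huS).mul (h.cF.inner hg)
  have c2 : ContinuousOn (fun x => (b * ‖∇ u x‖ + a * m x) * H (u x)) U :=
    ((continuousOn_const.mul hg.norm).add (continuousOn_const.mul h.cm)).mul hHu.continuousOn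
  have key := h.weak _ hT
  have e1 : ∫ x, ⟪F x, ∇ (fun x => φ x * H (u x)) x⟫ =
      ∫ x, (⟪H (u x) • F x, ∇ φ x⟫ + H' (u x) * ⟪F x, ∇ u x⟫ * φ x) := by
    refine integral_congr_ae (Eventually.of_forall fun x => ?_)
    by_cases hx : x ∈ tsupport φ
    · simp only
      rw [gradient_mul_comp (hφ.c1.differentiable (by norm_num) x) (diffAt hU h.cu (hφ.sub hx))
        (hH _ (huS x (hφ.sub hx)))]
      simp only [inner_add_right, inner_smul_right, inner_smul_left, conj_trivial]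
      ring
    · have hs : Function.support (fun x => φ x * H (u x)) ⊆ Function.support φ :=
        fun y hy h'' => hy (by simp only [h'', zero_mul])
      have : x ∉ tsupport fun x => φ x * H (u x) := fun h' => hx (closure_mono hs h')
      simp [gradient_eq_zero_of_notMem hx, gradient_eq_zero_of_notMem this,
        image_eq_zero_of_notMem_tsupport hx]
  have i1 : Integrable fun x => ⟪H (u x) • F x, ∇ φ x⟫ :=
    hφ.int_inner (F := fun x => H (u x) • F x) (hHu.continuousOn.smul h.cF)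
  rw [e1, integral_add i1 (hφ.int_mul c1)] at key
  simp only [sub_mul]
  rw [integral_sub (hφ.int_mul c2) (hφ.int_mul c1)]
  have e2 : ∫ x, (b * ‖∇ u x‖ + a * m x) * (φ x * H (u x)) =
      ∫ x, (b * ‖∇ u x‖ + a * m x) * H (u x) * φ x :=
    integral_congr_ae (Eventually.of_forall fun x => by simp only; ring)
  linarith

/-- Rescaling to the unit scale (`r ≤ 1`). -/
theorem scale (hU : IsOpen U) (h : Sub lam Lam a b U u m F) (ha : 0 ≤ a) (hb : 0 ≤ b) (x0 : E n)
    {r : ℝ} (hr : 0 < r) (hr1 : r ≤ 1) :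
    Sub lam Lam a b ((fun y => x0 + r • y) ⁻¹' U) (fun y => u (x0 + r • y))
      (fun y => r * m (x0 + r • y)) (fun y => r • F (x0 + r • y)) := by
  have caff : Continuous (fun y : E n => x0 + r • y) := by fun_prop
  have daff : ContDiff ℝ 1 (fun y : E n => x0 + r • y) := by fun_prop
  have hg : ∀ y, x0 + r • y ∈ U → ∇ (fun y => u (x0 + r • y)) y = r • ∇ u (x0 + r • y) :=
    fun y hy => gradient_affine (diffAt hU h.cu hy)
  have hn : ∀ v : E n, ‖r • v‖ = r * ‖v‖ := fun v => by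
    rw [norm_smul, Real.norm_eq_abs, abs_of_pos hr]
  have cu : ContDiffOn ℝ 1 (fun y => u (x0 + r • y)) ((fun y => x0 + r • y) ⁻¹' U) :=
    h.cu.comp daff.contDiffOn fun _ hy => hy
  have cm : ContinuousOn (fun y => r * m (x0 + r • y)) ((fun y => x0 + r • y) ⁻¹' U) :=
    continuousOn_const.mul (h.cm.comp caff.continuousOn fun _ hy => hy)
  refine ⟨cu, cm, (h.cF.comp caff.continuousOn fun _ hy => hy).const_smul r,
    fun y hy => mul_nonneg hr.le (h.m0 _ hy), fun y hy => ?_, fun y hy => ?_, fun φ hφ => ?_⟩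
  · rw [hg y hy, hn, inner_smul_left, inner_smul_right, conj_trivial]
    have := mul_le_mul_of_nonneg_left (h.low _ hy) (sq_nonneg r)
    nlinarith
  · rw [hg y hy, hn, hn]
    have := mul_le_mul_of_nonneg_left (h.up _ hy) hr.le
    nlinarith
  · have hU' : IsOpen ((fun y => x0 + r • y) ⁻¹' U) := hU.preimage caff
    refine (weak_scale h.weak x0 hr hφ).trans ?_
    refine integral_mono (hφ.int_mul (continuousOn_const.mul ((continuousOn_const.mul
      (((continuousOn_gradient hU h.cu).comp caff.continuousOn fun _ hy => hy).norm)).add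
      (continuousOn_const.mul (h.cm.comp caff.continuousOn fun _ hy => hy)))))
      (hφ.int_mul ((continuousOn_const.mul (continuousOn_gradient hU' cu).norm).add
        (continuousOn_const.mul cm))) fun y => ?_
    by_cases hy : y ∈ tsupport φ
    · have hy' : x0 + r • y ∈ U := hφ.sub hy
      simp only
      rw [hg y hy', hn]
      refine mul_le_mul_of_nonneg_right ?_ (hφ.nonneg y)
      have h1 : 0 ≤ b * ‖∇ u (x0 + r • y)‖ + a * m (x0 + r • y) :=
        add_nonneg (mul_nonneg hb (norm_nonneg _)) (mul_nonneg ha (h.m0 _ hy'))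
      have h2 : r ^ 2 ≤ r := by nlinarith
      nlinarith [mul_le_mul_of_nonneg_right h2 h1]
    · simp [image_eq_zero_of_notMem_tsupport hy]

end Sub

end

end Crest.Agent.NLib.Ell
end

-- ▼ part NLib/Ell/Cacc
section

/-!
# Caccioppoli inequality for powers and the Moser iteration (helper26)
-/

set_option autoImplicit false
open MeasureTheory Metric Set Filter Topology InnerProductSpace
open scoped NNReal ENNReal RealInnerProductSpace Gradient ContDiff

namespace Crest.Agent.NLib.Ell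

open Crest.Agent.R202.Moser

noncomputable section

variable {n : ℕ}

local notation "E" n => EuclideanSpace ℝ (Fin n)

/-- The structure constant of the Caccioppoli inequalities. -/
def K0 (lam Lam a b : ℝ) : ℝ := a ^ 2 + 2 * a + b ^ 2 / lam + 4 * Lam ^ 2 / lam

theorem K0_nonneg {lam Lam a b : ℝ} (hlam : 0 < lam) (ha : 0 ≤ a) : 0 ≤ K0 lam Lam a b := by
  unfold K0; positivity

theorem gradient_sq {η : (E n) → ℝ} {x : E n} (hη : DifferentiableAt ℝ η x) :
    ∇ (fun y => η y ^ 2) x = (2 * η x) • ∇ η x := by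
  have := gradient_comp (H := fun s => s ^ 2) (H' := 2 * η x) hη (by simpa using hasDerivAt_pow 2 (η x))
  exact this

theorem young (lam s t : ℝ) (hlam : 0 < lam) : s * t ≤ lam / 4 * s ^ 2 + t ^ 2 / lam := by
  have : lam / 4 * s ^ 2 + t ^ 2 / lam - s * t = (lam * s - 2 * t) ^ 2 / (4 * lam) := by
    field_simp; ring
  have h2 : 0 ≤ (lam * s - 2 * t) ^ 2 / (4 * lam) := by positivity
  linarith

theorem cacc_pt {lam Lam a b p η e g v I J : ℝ} (hlam : 0 < lam) (ha : 0 ≤ a) (hp : 1 ≤ p)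
    (hv : 0 ≤ v) (hη : 0 ≤ η) (hI : lam * g ^ 2 - a ^ 2 * v ^ 2 ≤ I)
    (hJ : -((Lam * g + a * v) * e) ≤ J) :
    p * (lam / 2) * (η ^ 2 * g ^ 2) + (((b * g + a * v) * v - p * I) * η ^ 2 - v * (2 * η * J)) ≤
      p * K0 lam Lam a b * ((η ^ 2 + e ^ 2) * v ^ 2) := by
  have y1 := young lam (η * g) (2 * Lam * e * v) hlam
  have y2 := young lam (η * g) (b * η * v) hlam
  have e1 : p * η ^ 2 * (lam * g ^ 2 - a ^ 2 * v ^ 2) ≤ p * η ^ 2 * I :=
    mul_le_mul_of_nonneg_left hI (by positivity)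
  have e2 : 2 * v * η * (-((Lam * g + a * v) * e)) ≤ 2 * v * η * J :=
    mul_le_mul_of_nonneg_left hJ (by positivity)
  have e3 : a * v ^ 2 * (2 * η * e) ≤ a * v ^ 2 * (η ^ 2 + e ^ 2) :=
    mul_le_mul_of_nonneg_left (by nlinarith [sq_nonneg (η - e)]) (by positivity)
  have e4 : lam / 2 * (η ^ 2 * g ^ 2) ≤ p * (lam / 2 * (η ^ 2 * g ^ 2)) :=
    le_mul_of_one_le_left (by positivity) hp
  set Y := η ^ 2 * v ^ 2 with hY
  set Z := e ^ 2 * v ^ 2 with hZ
  have hY0 : 0 ≤ Y := by positivity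
  have hZ0 : 0 ≤ Z := by positivity
  have e5 : (b ^ 2 / lam + 2 * a) * Y + (4 * Lam ^ 2 / lam + a) * Z ≤
      p * ((b ^ 2 / lam + 2 * a) * Y + (4 * Lam ^ 2 / lam + a) * Z) :=
    le_mul_of_one_le_left (by positivity) hp
  have e6 : 0 ≤ p * ((4 * Lam ^ 2 / lam) * Y + (a ^ 2 + a + b ^ 2 / lam) * Z) := by positivity
  have r1 : (2 * Lam * e * v) ^ 2 / lam = 4 * Lam ^ 2 / lam * Z := by rw [hZ]; ring
  have r2 : (b * η * v) ^ 2 / lam = b ^ 2 / lam * Y := by rw [hY]; ring
  have r3 : p * K0 lam Lam a b * ((η ^ 2 + e ^ 2) * v ^ 2) =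
      p * a ^ 2 * Y + p * ((b ^ 2 / lam + 2 * a) * Y + (4 * Lam ^ 2 / lam + a) * Z) +
        p * ((4 * Lam ^ 2 / lam) * Y + (a ^ 2 + a + b ^ 2 / lam) * Z) := by
    rw [K0, hY, hZ]; ring
  rw [r1] at y1
  rw [r2] at y2
  rw [r3]
  nlinarith

/-- Integrating a pointwise inequality against a weak inequality. -/
theorem int_le_of_weak {A B X Y : (E n) → ℝ} (iA : Integrable A) (iB : Integrable B)
    (iX : Integrable X) (iY : Integrable Y) (key : ∫ x, A x ≤ ∫ x, B x)
    (pt : ∀ x, X x + B x - A x ≤ Y x) : ∫ x, X x ≤ ∫ x, Y x := by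
  have i1 : Integrable fun x => X x + B x := iX.add iB
  have i2 : Integrable fun x => X x + B x - A x := i1.sub iA
  have e2 := integral_mono i2 iY pt
  rw [integral_sub i1 iA, integral_add iX iB] at e2
  linarith

variable {lam Lam a b : ℝ} {U : Set (E n)} {v : (E n) → ℝ} {F : (E n) → E n}

/-- Caccioppoli inequality for the powers of a positive subsolution. -/
theorem cacc_pow (hU : IsOpen U) (hlam : 0 < lam) (ha : 0 ≤ a) (h : Sub lam Lam a b U v v F)
    (hv : ∀ x ∈ U, 0 < v x) {q : ℝ} (hq : 1 ≤ q) {η : (E n) → ℝ} (hη : Test U η) :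
    ∫ x, ‖∇ (fun y => η y * v y ^ q) x‖ ^ 2 ≤
      q ^ 2 * (4 * K0 lam Lam a b / lam + 2) * ∫ x, (η x ^ 2 + ‖∇ η x‖ ^ 2) * v x ^ (2 * q) := by
  obtain ⟨p, hp⟩ : ∃ p, p = 2 * q - 1 := ⟨_, rfl⟩
  have hp1 : 1 ≤ p := by linarith
  have hK := K0_nonneg (Lam := Lam) (b := b) hlam ha
  have key := h.weak_mul hU (H := fun s => s ^ p) (H' := fun s => p * s ^ (p - 1)) isOpen_Ioi hv
    (fun s hs => Real.hasDerivAt_rpow_const (Or.inl (ne_of_gt hs)))
    (continuousOn_const.mul (continuousOn_id.rpow_const fun s hs => Or.inl (ne_of_gt hs)))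
    (fun s hs => Real.rpow_nonneg (le_of_lt hs) _) hη.sq
  have hg := continuousOn_gradient hU h.cu
  have cη := (continuous_gradient hη.c1).continuousOn (s := U)
  have cη0 := hη.c1.continuous.continuousOn (s := U)
  have cv : ∀ t : ℝ, ContinuousOn (fun x => v x ^ t) U := fun t =>
    h.cu.continuousOn.rpow_const fun x hx => Or.inl (hv x hx).ne'
  have dη := hη.c1.differentiable (by norm_num)
  have z0 : ∀ x, x ∉ tsupport η → η x = 0 := fun x hx => image_eq_zero_of_notMem_tsupport hx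
  have z1 : ∀ x, x ∉ tsupport η → ∇ η x = 0 := fun x hx => gradient_eq_zero_of_notMem hx
  have io : ∀ {f : (E n) → ℝ}, ContinuousOn f U → (∀ x, x ∉ tsupport η → f x = 0) → Integrable f :=
    fun hf h0 => integrable_of_on hη.cs.isCompact hη.sub hf h0
  have iX : Integrable fun x => η x ^ 2 * ‖∇ v x‖ ^ 2 * v x ^ (p - 1) :=
    io (((cη0.pow 2).mul (hg.norm.pow 2)).mul (cv _)) fun x hx => by simp [z0 x hx]
  have iY : Integrable fun x => (η x ^ 2 + ‖∇ η x‖ ^ 2) * v x ^ (2 * q) :=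
    io (((cη0.pow 2).add (cη.norm.pow 2)).mul (cv _)) fun x hx => by simp [z0 x hx, z1 x hx]
  have iA : Integrable fun x => ⟪v x ^ p • F x, ∇ (fun y => η y ^ 2) x⟫ :=
    hη.sq.int_inner (F := fun x => v x ^ p • F x) ((cv _).smul h.cF)
  have iB : Integrable fun x => ((b * ‖∇ v x‖ + a * v x) * v x ^ p -
      p * v x ^ (p - 1) * ⟪F x, ∇ v x⟫) * η x ^ 2 :=
    hη.sq.int_mul ((((continuousOn_const.mul hg.norm).add (continuousOn_const.mul h.cm)).mul
      (cv _)).sub ((continuousOn_const.mul (cv _)).mul (h.cF.inner hg)))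
  have pw1 : ∀ x ∈ U, v x ^ p = v x * v x ^ (p - 1) := fun x hx => by
    rw [Real.rpow_sub_one (hv x hx).ne']; field_simp [(hv x hx).ne']
  have pw2 : ∀ x ∈ U, v x ^ (2 * q) = v x ^ 2 * v x ^ (p - 1) := fun x hx => by
    rw [show 2 * q = 2 + (p - 1) by rw [hp]; ring, Real.rpow_add (hv x hx), Real.rpow_two]
  have e1 : p * (lam / 2) * ∫ x, η x ^ 2 * ‖∇ v x‖ ^ 2 * v x ^ (p - 1) ≤
      p * K0 lam Lam a b * ∫ x, (η x ^ 2 + ‖∇ η x‖ ^ 2) * v x ^ (2 * q) := by
    rw [← integral_const_mul, ← integral_const_mul]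
    refine int_le_of_weak iA iB (iX.const_mul _) (iY.const_mul _) key fun x => ?_
    · by_cases hx : x ∈ tsupport η
      · have hx' := hη.sub hx
        rw [gradient_sq (dη x), pw1 x hx', pw2 x hx', inner_smul_left, inner_smul_right,
          conj_trivial]
        have hJ : -((Lam * ‖∇ v x‖ + a * v x) * ‖∇ η x‖) ≤ ⟪F x, ∇ η x⟫ := by
          have h1 := abs_real_inner_le_norm (F x) (∇ η x)
          have h2 := mul_le_mul_of_nonneg_right (h.up x hx') (norm_nonneg (∇ η x))
          linarith [neg_abs_le ⟪F x, ∇ η x⟫]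
        have := mul_le_mul_of_nonneg_right (cacc_pt (b := b) hlam ha hp1 (hv x hx').le
          (hη.nonneg x) (h.low x hx') hJ) (Real.rpow_nonneg (hv x hx').le (p - 1))
        nlinarith
      · rw [gradient_sq (dη x)]
        simp [z0 x hx, z1 x hx]
  have e3 : ∫ x, η x ^ 2 * ‖∇ v x‖ ^ 2 * v x ^ (p - 1) ≤
      2 * K0 lam Lam a b / lam * ∫ x, (η x ^ 2 + ‖∇ η x‖ ^ 2) * v x ^ (2 * q) := by
    rw [mul_assoc, mul_assoc] at e1
    have := le_of_mul_le_mul_left e1 (by linarith)
    rw [div_mul_eq_mul_div, le_div_iff₀ hlam]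
    linarith
  have cq : ContDiffOn ℝ 1 (fun y => v y ^ q) U := h.cu.rpow_const_of_ne fun x hx => (hv x hx).ne'
  have hT := hη.mul hU cq fun x hx => Real.rpow_nonneg (hv x hx).le _
  have hs : tsupport (fun y => η y * v y ^ q) ⊆ tsupport η :=
    closure_mono fun y hy h' => hy (by simp only [h', zero_mul])
  have iL : Integrable fun x => ‖∇ (fun y => η y * v y ^ q) x‖ ^ 2 :=
    io ((continuous_gradient hT.c1).norm.pow 2).continuousOn fun x hx => by
      rw [gradient_eq_zero_of_notMem fun h' => hx (hs h')]; simp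
  have e4 := integral_mono iL ((iX.const_mul (2 * q ^ 2)).add (iY.const_mul 2)) fun x => ?_
  · simp only [Pi.add_apply] at e4
    rw [integral_add (iX.const_mul _) (iY.const_mul _), integral_const_mul, integral_const_mul] at e4
    have hY : 0 ≤ ∫ x, (η x ^ 2 + ‖∇ η x‖ ^ 2) * v x ^ (2 * q) := by
      refine integral_nonneg fun x => ?_
      by_cases hx : x ∈ tsupport η
      · exact mul_nonneg (by positivity) (Real.rpow_nonneg (hv x (hη.sub hx)).le _)
      · simp [z0 x hx, z1 x hx]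
    have h5 := mul_le_mul_of_nonneg_left e3 (by positivity : 0 ≤ 2 * q ^ 2)
    have h6 : 1 ≤ q ^ 2 := one_le_pow₀ hq
    have h7 := mul_le_mul_of_nonneg_right h6 hY
    have h8 : 2 * q ^ 2 * (2 * K0 lam Lam a b / lam * ∫ x, (η x ^ 2 + ‖∇ η x‖ ^ 2) * v x ^ (2 * q))
        = q ^ 2 * (4 * K0 lam Lam a b / lam) * ∫ x, (η x ^ 2 + ‖∇ η x‖ ^ 2) * v x ^ (2 * q) := by
      ring
    nlinarith
  · by_cases hx : x ∈ tsupport η
    · have hx' := hη.sub hx
      simp only [Pi.add_apply]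
      rw [gradient_mul_comp (F := fun s => s ^ q) (dη x) (diffAt hU h.cu hx')
        (Real.hasDerivAt_rpow_const (Or.inl (hv x hx').ne'))]
      have n1 := norm_add_le ((η x * (q * v x ^ (q - 1))) • ∇ v x) (v x ^ q • ∇ η x)
      rw [norm_smul, norm_smul, Real.norm_eq_abs, Real.norm_eq_abs] at n1
      have n2 := pow_le_pow_left₀ (norm_nonneg _) n1 2
      have s1 : (v x ^ (q - 1)) ^ 2 = v x ^ (p - 1) := by
        rw [← Real.rpow_two, ← Real.rpow_mul (hv x hx').le, hp]; congr 1; ring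
      have s2 : (v x ^ q) ^ 2 = v x ^ (2 * q) := by
        rw [← Real.rpow_two, ← Real.rpow_mul (hv x hx').le]; congr 1; ring
      have s3 : (|η x * (q * v x ^ (q - 1))| * ‖∇ v x‖) ^ 2 =
          q ^ 2 * (η x ^ 2 * ‖∇ v x‖ ^ 2 * v x ^ (p - 1)) := by
        rw [mul_pow, sq_abs, ← s1]; ring
      have s4 : (|v x ^ q| * ‖∇ η x‖) ^ 2 = ‖∇ η x‖ ^ 2 * v x ^ (2 * q) := by
        rw [mul_pow, sq_abs, s2]; ring
      have s5 : 0 ≤ η x ^ 2 * v x ^ (2 * q) :=
        mul_nonneg (sq_nonneg _) (Real.rpow_nonneg (hv x hx').le _)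
      nlinarith [sq_nonneg (|η x * (q * v x ^ (q - 1))| * ‖∇ v x‖ - |v x ^ q| * ‖∇ η x‖)]
    · rw [gradient_eq_zero_of_notMem fun h' => hx (hs h')]
      simp [z0 x hx, z1 x hx]

/-- One step of the Moser iteration. -/
theorem moser_step (hn : 3 ≤ n) (hlam : 0 < lam) (Lam : ℝ) (ha : 0 ≤ a) (b : ℝ) :
    ∃ K : ℝ, 0 < K ∧ ∀ (v : (E n) → ℝ) (F : (E n) → E n), Sub lam Lam a b (ball 0 2) v v F →
      (∀ x ∈ ball (0 : E n) 2, 0 < v x) → ∀ s' s : ℝ, 0 < s' → s' < s → s < 2 → ∀ q : ℝ, 1 ≤ q →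
      (∫ x in closedBall (0 : E n) s', v x ^ (2 * (chi n * q))) ^ (1 / chi n)
        ≤ K * q ^ 2 / (s - s') ^ 2 * ∫ x in closedBall (0 : E n) s, v x ^ (2 * q) := by
  obtain ⟨C1, hC1, hsob⟩ := sobolev hn
  obtain ⟨C2, hC2, hcut⟩ := exists_cutoff (n := n)
  have hχ := one_lt_chi hn
  have hK := K0_nonneg (Lam := Lam) (b := b) hlam ha
  refine ⟨C1 * ((4 * K0 lam Lam a b / lam + 2) * (4 + C2 ^ 2)), by positivity, ?_⟩
  intro v F h hv s' s hs' hss hs2 q hq
  obtain ⟨η, hη1, hηc, hηs, hη1', hη0, hηle, hηg⟩ := hcut s' s hs' hss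
  have hsub : closedBall (0 : E n) s ⊆ ball 0 2 := closedBall_subset_ball hs2
  have hη : Test (ball 0 2) η := ⟨hη1, hηc, hηs.trans hsub, hη0⟩
  have cac := cacc_pow isOpen_ball hlam ha h hv hq hη
  have cq : ContDiffOn ℝ 1 (fun y => v y ^ q) (ball 0 2) :=
    h.cu.rpow_const_of_ne fun x hx => (hv x hx).ne'
  have hT := hη.mul isOpen_ball cq fun x hx => Real.rpow_nonneg (hv x hx).le _
  have sob := hsob _ hT.c1 hT.cs
  have cv : ∀ t : ℝ, ContinuousOn (fun x => v x ^ t) (closedBall 0 s) := fun t =>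
    (h.cu.continuousOn.rpow_const fun x hx => Or.inl (hv x hx).ne').mono hsub
  have lowb : (∫ x in closedBall (0 : E n) s', v x ^ (2 * (chi n * q)))
      ≤ ∫ x, |η x * v x ^ q| ^ (2 * chi n) := by
    have i1 : Integrable (fun x => |η x * v x ^ q| ^ (2 * chi n)) := by
      have hc : Continuous (fun x => |η x * v x ^ q| ^ (2 * chi n)) :=
        (continuous_abs_rpow (by linarith)).comp hT.c1.continuous
      apply hc.integrable_of_hasCompactSupport
      refine HasCompactSupport.intro hηc.isCompact fun x hx => ?_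
      rw [image_eq_zero_of_notMem_tsupport hx, zero_mul, abs_zero, Real.zero_rpow (by linarith)]
    refine le_trans (le_of_eq ?_) (setIntegral_le_integral (s := closedBall 0 s') i1
      (Eventually.of_forall fun x => by positivity))
    refine setIntegral_congr_fun measurableSet_closedBall fun x hx => ?_
    have hx' := hv x (hsub (closedBall_subset_closedBall hss.le hx))
    rw [hη1' x hx, one_mul, abs_of_pos (Real.rpow_pos_of_pos hx' _), ← Real.rpow_mul hx'.le]
    congr 1; ring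
  have upb : ∫ x, (η x ^ 2 + ‖∇ η x‖ ^ 2) * v x ^ (2 * q)
      ≤ (4 + C2 ^ 2) / (s - s') ^ 2 * ∫ x in closedBall (0 : E n) s, v x ^ (2 * q) := by
    rw [← setIntegral_eq_integral_of_forall_compl_eq_zero (s := closedBall (0 : E n) s)
      fun x hx => by
        have : x ∉ tsupport η := fun h' => hx (hηs h')
        simp [image_eq_zero_of_notMem_tsupport this, gradient_eq_zero_of_notMem this],
      ← integral_const_mul]
    refine setIntegral_mono_on (((((hη1.continuous.pow 2).add ((continuous_gradient hη1).norm.pow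
      2)).continuousOn).mul (cv _)).integrableOn_compact (isCompact_closedBall _ _))
      ((continuousOn_const.mul (cv _)).integrableOn_compact (isCompact_closedBall _ _))
      measurableSet_closedBall fun x hx => ?_
    refine mul_le_mul_of_nonneg_right ?_ (Real.rpow_nonneg (hv x (hsub hx)).le _)
    have h4 : ‖∇ η x‖ ^ 2 ≤ (C2 / (s - s')) ^ 2 := pow_le_pow_left₀ (norm_nonneg _) (hηg x) 2
    have h5 : η x ^ 2 ≤ 1 := pow_le_one₀ (hη0 x) (hηle x)
    have hd : 0 < s - s' := by linarith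
    have h6 : 1 ≤ 4 / (s - s') ^ 2 := by
      rw [le_div_iff₀ (by positivity)]; nlinarith
    rw [div_pow] at h4
    rw [add_div]
    linarith
  have hpos : 0 ≤ ∫ x in closedBall (0 : E n) s', v x ^ (2 * (chi n * q)) :=
    setIntegral_nonneg measurableSet_closedBall fun x hx =>
      Real.rpow_nonneg (hv x (hsub (closedBall_subset_closedBall hss.le hx))).le _
  calc (∫ x in closedBall (0 : E n) s', v x ^ (2 * (chi n * q))) ^ (1 / chi n)
      ≤ (∫ x, |η x * v x ^ q| ^ (2 * chi n)) ^ (1 / chi n) :=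
        Real.rpow_le_rpow hpos lowb (by positivity)
    _ ≤ C1 * ∫ x, ‖∇ (fun y => η y * v y ^ q) x‖ ^ 2 := sob
    _ ≤ C1 * (q ^ 2 * (4 * K0 lam Lam a b / lam + 2) * ((4 + C2 ^ 2) / (s - s') ^ 2 *
          ∫ x in closedBall (0 : E n) s, v x ^ (2 * q))) := by
        refine mul_le_mul_of_nonneg_left (cac.trans ?_) hC1.le
        exact mul_le_mul_of_nonneg_left upb (by positivity)
    _ = _ := by ring

end

end Crest.Agent.NLib.Ell
end

-- ▼ part NLib/Ell/LocMax
section

/-!
# The local maximum principle (`L² → L^∞`) for weak subsolutions (helper26)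
-/

set_option autoImplicit false
open MeasureTheory Metric Set Filter Topology InnerProductSpace
open scoped NNReal ENNReal RealInnerProductSpace Gradient ContDiff

namespace Crest.Agent.NLib.Ell

open Crest.Agent.R202.Moser

noncomputable section

variable {n : ℕ}

local notation "E" n => EuclideanSpace ℝ (Fin n)

theorem iter_bound' {χ b D : ℝ} (hχ : 1 < χ) (hb : 1 ≤ b) (hD : 1 ≤ D) :
    ∃ B : ℝ, 0 < B ∧ ∀ M : ℕ → ℝ, (∀ k, 0 ≤ M k) →
      (∀ k, M (k + 1) ≤ (b * D ^ k) ^ ((χ⁻¹) ^ k) * M k) → ∀ k, M k ≤ B * M 0 := by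
  set r := χ⁻¹ with hr
  have hr0 : 0 < r := by positivity
  have hr1 : r < 1 := inv_lt_one_of_one_lt₀ hχ
  have hs1 : Summable (fun j : ℕ => r ^ j) := summable_geometric_of_lt_one hr0.le hr1
  have hs2 : Summable (fun j : ℕ => (j : ℝ) * r ^ j) := by
    have := summable_pow_mul_geometric_of_norm_lt_one (R := ℝ) 1 (r := r)
      (by rw [Real.norm_eq_abs, abs_of_pos hr0]; exact hr1)
    simpa using this
  set S : ℕ → ℝ := fun k => ∑ j ∈ Finset.range k, (r ^ j * Real.log b + (j * r ^ j) * Real.log D)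
    with hS
  have hlb : 0 ≤ Real.log b := Real.log_nonneg hb
  have hl4 : 0 ≤ Real.log D := Real.log_nonneg hD
  have hsum : Summable (fun j : ℕ => r ^ j * Real.log b + (j * r ^ j) * Real.log D) :=
    (hs1.mul_right _).add (hs2.mul_right _)
  set T := ∑' j : ℕ, (r ^ j * Real.log b + (j * r ^ j) * Real.log D) with hT
  have hST : ∀ k, S k ≤ T := fun k => hsum.sum_le_tsum _ fun j _ => by positivity
  refine ⟨Real.exp T, Real.exp_pos _, fun M hM0 hM k => ?_⟩
  have key : ∀ k, M k ≤ Real.exp (S k) * M 0 := by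
    intro k
    induction k with
    | zero => simp [hS]
    | succ k ih =>
      have h1 : (b * D ^ k) ^ (r ^ k) = Real.exp (r ^ k * Real.log b + (k * r ^ k) * Real.log D) := by
        rw [Real.rpow_def_of_pos (by positivity), Real.log_mul (by positivity) (by positivity),
          Real.log_pow]
        congr 1; ring
      have h2 : S (k + 1) = S k + (r ^ k * Real.log b + (k * r ^ k) * Real.log D) := by
        simp only [hS, Finset.sum_range_succ]
      calc M (k + 1) ≤ (b * D ^ k) ^ (r ^ k) * M k := hM k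
        _ ≤ (b * D ^ k) ^ (r ^ k) * (Real.exp (S k) * M 0) := by gcongr
        _ = Real.exp (S (k + 1)) * M 0 := by rw [h1, h2, Real.exp_add (S k)]; ring
  calc M k ≤ Real.exp (S k) * M 0 := key k
    _ ≤ Real.exp T * M 0 := by
      have := hM0 0
      have := hST k
      gcongr

/-- The abstract Moser iteration: reverse Hölder inequalities give a sup bound. -/
theorem moser_iter {χ K : ℝ} (hχ : 1 < χ) (hK : 0 < K) :
    ∃ C : ℝ, 0 < C ∧ ∀ v : (E n) → ℝ, ContinuousOn v (ball 0 2) → (∀ x ∈ ball (0 : E n) 2, 0 < v x) →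
      (∀ s' s : ℝ, 0 < s' → s' < s → s < 2 → ∀ q : ℝ, 1 ≤ q →
        (∫ x in closedBall (0 : E n) s', v x ^ (2 * (χ * q))) ^ (1 / χ)
          ≤ K * q ^ 2 / (s - s') ^ 2 * ∫ x in closedBall (0 : E n) s, v x ^ (2 * q)) →
      ∀ x ∈ ball (0 : E n) 1, v x ^ 2 ≤ C * ∫ y in closedBall (0 : E n) (3 / 2), v y ^ 2 := by
  have hχ0 : 0 < χ := by linarith
  obtain ⟨B, hB, hiter⟩ := iter_bound' (χ := χ) (b := 16 * K + 1) (D := 4 * χ ^ 2) hχ (by linarith)
    (by nlinarith)
  refine ⟨B, hB, ?_⟩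
  intro v hvc hv hstep x hx
  set s : ℕ → ℝ := fun k => 1 + (1 / 2) ^ (k + 1) with hs
  have hs2 : ∀ k, s k < 2 := fun k => by
    simp only [hs]
    have : (1 / 2 : ℝ) ^ (k + 1) < 1 := pow_lt_one₀ (by norm_num) (by norm_num) (by omega)
    linarith
  have hsub : ∀ k, closedBall (0 : E n) (s k) ⊆ ball 0 2 := fun k => closedBall_subset_ball (hs2 k)
  set W : ℕ → ℝ := fun k => ∫ y in closedBall (0 : E n) (s k), v y ^ (2 * χ ^ k) with hW
  set M : ℕ → ℝ := fun k => W k ^ (χ⁻¹ ^ k) with hM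
  have hW0 : ∀ k, 0 ≤ W k := fun k => setIntegral_nonneg measurableSet_closedBall fun y hy =>
    Real.rpow_nonneg (hv y (hsub k hy)).le _
  have hM0 : ∀ k, 0 ≤ M k := fun k => Real.rpow_nonneg (hW0 k) _
  have hrec : ∀ k, M (k + 1) ≤ ((16 * K + 1) * (4 * χ ^ 2) ^ k) ^ (χ⁻¹ ^ k) * M k := by
    intro k
    have hsk : s (k + 1) < s k := by
      simp only [hs]
      have : (1 / 2 : ℝ) ^ (k + 1 + 1) < (1 / 2) ^ (k + 1) := by
        apply pow_lt_pow_right_of_lt_one₀ (by norm_num) (by norm_num) (by omega)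
      linarith
    have hs0 : 0 < s (k + 1) := by simp only [hs]; positivity
    have h1 := hstep (s (k + 1)) (s k) hs0 hsk (hs2 k) (χ ^ k) (one_le_pow₀ hχ.le)
    have h2 : χ * χ ^ k = χ ^ (k + 1) := by ring
    rw [h2] at h1
    have h3 : K * (χ ^ k) ^ 2 / (s k - s (k + 1)) ^ 2 ≤ (16 * K + 1) * (4 * χ ^ 2) ^ k := by
      have h4 : s k - s (k + 1) = (1 / 2) ^ (k + 2) := by
        simp only [hs]; ring
      rw [h4, div_le_iff₀ (by positivity)]
      have h5 : ((1 / 2 : ℝ) ^ (k + 2)) ^ 2 = (1 / 16) * (1 / 4) ^ k := by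
        rw [← pow_mul, mul_comm, pow_mul, pow_add]; norm_num; ring
      rw [h5]
      have h6 : (16 * K + 1) * (4 * χ ^ 2) ^ k * ((1 / 16) * (1 / 4) ^ k) =
          (16 * K + 1) / 16 * (χ ^ k) ^ 2 := by
        have : (4 : ℝ) ^ k * (1 / 4) ^ k = 1 := by rw [← mul_pow]; norm_num
        calc (16 * K + 1) * (4 * χ ^ 2) ^ k * ((1 / 16) * (1 / 4) ^ k)
            = (16 * K + 1) / 16 * (χ ^ k) ^ 2 * ((4 : ℝ) ^ k * (1 / 4) ^ k) := by
              rw [mul_pow, ← pow_mul, ← pow_mul, mul_comm 2 k]; ring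
          _ = _ := by rw [this, mul_one]
      rw [h6]
      exact mul_le_mul_of_nonneg_right (by linarith) (by positivity)
    have h7 : W (k + 1) ^ (1 / χ) ≤ (16 * K + 1) * (4 * χ ^ 2) ^ k * W k :=
      h1.trans (mul_le_mul_of_nonneg_right h3 (hW0 k))
    calc M (k + 1) = (W (k + 1) ^ (1 / χ)) ^ (χ⁻¹ ^ k) := by
          simp only [hM]
          rw [← Real.rpow_mul (hW0 _)]
          congr 1
          rw [one_div]; ring
      _ ≤ ((16 * K + 1) * (4 * χ ^ 2) ^ k * W k) ^ (χ⁻¹ ^ k) :=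
          Real.rpow_le_rpow (Real.rpow_nonneg (hW0 _) _) h7 (by positivity)
      _ = _ := by rw [Real.mul_rpow (by positivity) (hW0 k)]
  have hall := hiter M hM0 hrec
  have hM00 : M 0 = ∫ y in closedBall (0 : E n) (3 / 2), v y ^ 2 := by
    simp only [hM, hW, hs, pow_zero, Real.rpow_one, mul_one, Real.rpow_two]
    norm_num
  by_contra hcon
  rw [not_le] at hcon
  rw [← hM00] at hcon
  obtain ⟨t, ht1, ht2⟩ := exists_between hcon
  have ht : 0 < t := lt_of_le_of_lt (mul_nonneg hB.le (hM0 0)) ht1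
  have h12 : ball (0 : E n) 1 ⊆ ball 0 2 := ball_subset_ball (by norm_num)
  set U : Set (E n) := ball 0 1 ∩ (fun y => v y ^ 2) ⁻¹' Ioi t with hU
  have hUo : IsOpen U := ((hvc.mono h12).pow 2).isOpen_inter_preimage isOpen_ball isOpen_Ioi
  have hUx : x ∈ U := ⟨hx, ht2⟩
  have hUf : volume U < ⊤ := lt_of_le_of_lt (measure_mono inter_subset_left) measure_ball_lt_top
  have hUm : 0 < (volume U).toReal := by
    rw [ENNReal.toReal_pos_iff]
    exact ⟨hUo.measure_pos volume ⟨x, hUx⟩, hUf⟩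
  set m := (volume U).toReal with hm
  have hlow : ∀ k, m ^ (χ⁻¹ ^ k) * t ≤ M k := by
    intro k
    have h1 : m * t ^ (χ ^ k) ≤ W k := by
      have hsub' : U ⊆ closedBall (0 : E n) (s k) := by
        refine inter_subset_left.trans ((ball_subset_ball ?_).trans ball_subset_closedBall)
        simp only [hs]
        have : (0 : ℝ) < (1 / 2) ^ (k + 1) := by positivity
        linarith
      have hint : IntegrableOn (fun y => v y ^ (2 * χ ^ k)) (closedBall (0 : E n) (s k)) :=
        ((hvc.rpow_const fun y hy => Or.inl (hv y hy).ne').mono (hsub k)).integrableOn_compact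
          (isCompact_closedBall _ _)
      calc m * t ^ (χ ^ k) = ∫ _y in U, t ^ (χ ^ k) := by
            rw [setIntegral_const, smul_eq_mul, measureReal_def]
        _ ≤ ∫ y in U, v y ^ (2 * χ ^ k) := by
            refine setIntegral_mono_on (integrableOn_const hUf.ne) (hint.mono_set hsub')
              hUo.measurableSet fun y hy => ?_
            rw [Real.rpow_mul (hv y (h12 hy.1)).le, Real.rpow_two]
            exact Real.rpow_le_rpow ht.le (le_of_lt hy.2) (by positivity)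
        _ ≤ W k := by
            refine setIntegral_mono_set hint ?_ (LE.le.eventuallyLE hsub')
            filter_upwards [ae_restrict_mem measurableSet_closedBall] with y hy
            exact Real.rpow_nonneg (hv y (hsub k hy)).le _
    calc m ^ (χ⁻¹ ^ k) * t = (m * t ^ (χ ^ k)) ^ (χ⁻¹ ^ k) := by
          rw [Real.mul_rpow hUm.le (by positivity), ← Real.rpow_mul ht.le]
          have : χ ^ k * χ⁻¹ ^ k = 1 := by
            rw [← mul_pow, mul_inv_cancel₀ hχ0.ne', one_pow]
          rw [this, Real.rpow_one]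
      _ ≤ M k := Real.rpow_le_rpow (by positivity) h1 (by positivity)
  have hlim : Tendsto (fun k : ℕ => m ^ (χ⁻¹ ^ k) * t) atTop (𝓝 (1 * t)) := by
    apply Tendsto.mul_const
    have h1 : Tendsto (fun k : ℕ => χ⁻¹ ^ k) atTop (𝓝 0) :=
      tendsto_pow_atTop_nhds_zero_of_lt_one (by positivity) (inv_lt_one_of_one_lt₀ hχ)
    have h2 := (Real.continuousAt_const_rpow hUm.ne' (b := 0)).tendsto.comp h1
    simpa [Function.comp_def] using h2
  have hle : 1 * t ≤ B * M 0 :=
    le_of_tendsto hlim (Eventually.of_forall fun k => (hlow k).trans (hall k))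
  linarith

/-- The smooth convex approximation `(s + √(s² + k²)) / 2` of the positive part. -/
def pp (k s : ℝ) : ℝ := (s + √(s ^ 2 + k ^ 2)) / 2

theorem pp_ge (k s : ℝ) : max s 0 ≤ pp k s := by
  have h : |s| ≤ √(s ^ 2 + k ^ 2) := Real.abs_le_sqrt (by nlinarith [sq_nonneg k])
  rw [pp, max_le_iff]
  constructor <;> linarith [le_abs_self s, neg_abs_le s]

theorem pp_le {k : ℝ} (hk : 0 ≤ k) (s : ℝ) : pp k s ≤ max s 0 + k / 2 := by
  have h : √(s ^ 2 + k ^ 2) ≤ |s| + k := by
    rw [Real.sqrt_le_left (by positivity)]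
    nlinarith [sq_abs s, abs_nonneg s]
  rw [pp]
  rcases le_total s 0 with h0 | h0
  · rw [abs_of_nonpos h0] at h; rw [max_eq_right h0]; linarith
  · rw [abs_of_nonneg h0] at h; rw [max_eq_left h0]; linarith

theorem hasDerivAt_sq {k : ℝ} (hk : 0 < k) (s : ℝ) :
    HasDerivAt (fun s => √(s ^ 2 + k ^ 2)) (s / √(s ^ 2 + k ^ 2)) s := by
  have h1 : HasDerivAt (fun s => s ^ 2 + k ^ 2) (2 * s) s := by
    simpa using (hasDerivAt_pow 2 s).add_const (k ^ 2)
  convert h1.sqrt (by positivity) using 1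
  field_simp

theorem hasDerivAt_pp {k : ℝ} (hk : 0 < k) (s : ℝ) :
    HasDerivAt (pp k) ((1 + s / √(s ^ 2 + k ^ 2)) / 2) s :=
  ((hasDerivAt_id s).add (hasDerivAt_sq hk s)).div_const 2

theorem hasDerivAt_pp' {k : ℝ} (hk : 0 < k) (s : ℝ) :
    HasDerivAt (fun s => (1 + s / √(s ^ 2 + k ^ 2)) / 2) (k ^ 2 / (2 * √(s ^ 2 + k ^ 2) ^ 3)) s := by
  have h0 : 0 < √(s ^ 2 + k ^ 2) := Real.sqrt_pos.2 (by positivity)
  have h1 := (((hasDerivAt_id' s).div (hasDerivAt_sq hk s) h0.ne').const_add 1).div_const 2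
  refine h1.congr_deriv ?_
  have h2 : √(s ^ 2 + k ^ 2) ^ 2 = s ^ 2 + k ^ 2 := Real.sq_sqrt (by positivity)
  field_simp
  linarith

variable {lam Lam a b : ℝ} {U : Set (E n)} {u m : (E n) → ℝ} {F : (E n) → E n}

/-- The regularised positive part of a subsolution is a positive subsolution. -/
theorem Sub.posPart (hU : IsOpen U) (hlam : 0 ≤ lam) (ha : 0 ≤ a) (h : Sub lam Lam a b U u m F)
    {k : ℝ} (hk : 0 < k) (hm : ∀ x ∈ U, m x ≤ max (u x) 0 + k) :
    Sub lam Lam (a + a ^ 2) b U (fun x => pp k (u x) + k) (fun x => pp k (u x) + k)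
      (fun x => ((1 + u x / √(u x ^ 2 + k ^ 2)) / 2) • F x) := by
  have h0 : ∀ s : ℝ, 0 < √(s ^ 2 + k ^ 2) := fun s => Real.sqrt_pos.2 (by positivity)
  have hab : ∀ s : ℝ, |s| ≤ √(s ^ 2 + k ^ 2) := fun s => Real.abs_le_sqrt (by nlinarith [sq_nonneg k])
  have hk' : ∀ s : ℝ, k ≤ √(s ^ 2 + k ^ 2) := fun s => Real.le_sqrt_of_sq_le (by nlinarith [sq_nonneg s])
  have d0 : ∀ s : ℝ, 0 ≤ (1 + s / √(s ^ 2 + k ^ 2)) / 2 := fun s => by
    have : -1 ≤ s / √(s ^ 2 + k ^ 2) := by
      rw [le_div_iff₀ (h0 s)]; linarith [neg_abs_le s, hab s]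
    linarith
  have d1 : ∀ s : ℝ, (1 + s / √(s ^ 2 + k ^ 2)) / 2 ≤ 1 := fun s => by
    have : s / √(s ^ 2 + k ^ 2) ≤ 1 := by
      rw [div_le_iff₀ (h0 s)]; linarith [le_abs_self s, hab s]
    linarith
  have cs : Continuous fun s : ℝ => √(s ^ 2 + k ^ 2) := by fun_prop
  have c1 : Continuous fun s : ℝ => (1 + s / √(s ^ 2 + k ^ 2)) / 2 :=
    (continuous_const.add (continuous_id.div cs fun s => (h0 s).ne')).div_const 2
  have c2 : Continuous fun s : ℝ => k ^ 2 / (2 * √(s ^ 2 + k ^ 2) ^ 3) :=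
    continuous_const.div (by fun_prop) fun s => by have := h0 s; positivity
  have cp : ContDiff ℝ 1 (pp k) := by
    rw [contDiff_one_iff_deriv]
    refine ⟨fun s => (hasDerivAt_pp hk s).differentiableAt, ?_⟩
    rw [show deriv (pp k) = _ from funext fun s => (hasDerivAt_pp hk s).deriv]
    exact c1
  have cu : ContDiffOn ℝ 1 (fun x => pp k (u x) + k) U :=
    (cp.comp_contDiffOn h.cu).add contDiffOn_const
  have hg : ∀ x ∈ U, ∇ (fun x => pp k (u x) + k) x =
      ((1 + u x / √(u x ^ 2 + k ^ 2)) / 2) • ∇ u x := fun x hx =>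
    gradient_comp (H := fun s => pp k s + k) (diffAt hU h.cu hx) ((hasDerivAt_pp hk _).add_const k)
  have hmv : ∀ x ∈ U, m x ≤ pp k (u x) + k := fun x hx => by linarith [hm x hx, pp_ge k (u x)]
  have hkv : ∀ x, k ≤ pp k (u x) + k := fun x => by
    linarith [pp_ge k (u x), le_max_right (u x) 0]
  have hamv : ∀ x ∈ U, a * m x ≤ (a + a ^ 2) * (pp k (u x) + k) := fun x hx => by
    have h1 := mul_le_mul_of_nonneg_left (hmv x hx) ha
    nlinarith [hkv x, sq_nonneg a, mul_nonneg (sq_nonneg a) (hk.le.trans (hkv x))]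
  refine ⟨cu, cu.continuousOn, (c1.comp_continuousOn h.cu.continuousOn).smul h.cF,
    fun x _ => hk.le.trans (hkv x), fun x hx => ?_, fun x hx => ?_, fun φ hφ => ?_⟩
  · rw [hg x hx, norm_smul, inner_smul_left, inner_smul_right, conj_trivial, Real.norm_eq_abs,
      mul_pow, sq_abs, ← mul_pow (a + a ^ 2)]
    set d := (1 + u x / √(u x ^ 2 + k ^ 2)) / 2
    have e1 := mul_le_mul_of_nonneg_left (h.low x hx) (sq_nonneg d)
    have e2 := pow_le_pow_left₀ (mul_nonneg ha (h.m0 x hx)) (hamv x hx) 2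
    have e3 : d ^ 2 * (a * m x) ^ 2 ≤ (a * m x) ^ 2 :=
      mul_le_of_le_one_left (sq_nonneg _) (pow_le_one₀ (d0 _) (d1 _))
    nlinarith
  · rw [hg x hx, norm_smul, norm_smul, Real.norm_eq_abs, abs_of_nonneg (d0 _)]
    set d := (1 + u x / √(u x ^ 2 + k ^ 2)) / 2
    have e1 : d * _ ≤ d * _ := mul_le_mul_of_nonneg_left (h.up x hx) (d0 (u x))
    have e3 : d * (a * m x) ≤ a * m x := mul_le_of_le_one_left (mul_nonneg ha (h.m0 x hx)) (d1 _)
    nlinarith [hamv x hx]
  · have key := h.weak_mul hU isOpen_univ (fun _ _ => mem_univ _) (fun s _ => hasDerivAt_pp' hk s)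
      c2.continuousOn (fun s _ => d0 s) hφ
    have cg := continuousOn_gradient hU h.cu
    refine key.trans (integral_mono (hφ.int_mul ((((continuousOn_const.mul cg.norm).add
      (continuousOn_const.mul h.cm)).mul (c1.comp_continuousOn h.cu.continuousOn)).sub
      ((c2.comp_continuousOn h.cu.continuousOn).mul (h.cF.inner cg))))
      (hφ.int_mul ((continuousOn_const.mul (continuousOn_gradient hU cu).norm).add
        (continuousOn_const.mul cu.continuousOn))) fun x => ?_)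
    by_cases hx : x ∈ tsupport φ
    · have hx' := hφ.sub hx
      refine mul_le_mul_of_nonneg_right ?_ (hφ.nonneg x)
      rw [hg x hx', norm_smul, Real.norm_eq_abs, abs_of_nonneg (d0 _)]
      set d := (1 + u x / √(u x ^ 2 + k ^ 2)) / 2
      set S := √(u x ^ 2 + k ^ 2) with hS
      have hS0 : 0 < S := h0 _
      have e0 : 0 ≤ k ^ 2 / (2 * S ^ 3) := by positivity
      have e1 := mul_le_mul_of_nonneg_left (h.low x hx') e0
      have e2 : m x ≤ |u x| + k := by
        linarith [hm x hx', max_le (le_abs_self (u x)) (abs_nonneg (u x))]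
      have e3 : m x ^ 2 ≤ 2 * S ^ 2 := by
        rw [hS, Real.sq_sqrt (by positivity)]
        nlinarith [pow_le_pow_left₀ (h.m0 x hx') e2 2, sq_abs (u x), sq_nonneg (|u x| - k)]
      have e4 : k ^ 2 / (2 * S ^ 3) * m x ^ 2 ≤ k := by
        rw [div_mul_eq_mul_div, div_le_iff₀ (by positivity)]
        have e5 : k * m x ^ 2 ≤ S * (2 * S ^ 2) := mul_le_mul (hk' _) e3 (sq_nonneg _) hS0.le
        nlinarith
      have e5 : d * (a * m x) ≤ a * m x := mul_le_of_le_one_left (mul_nonneg ha (h.m0 x hx')) (d1 _)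
      have e6 := mul_le_mul_of_nonneg_left (e4.trans (hkv x)) (sq_nonneg a)
      have e7 := mul_le_mul_of_nonneg_left (hmv x hx') ha
      have e8 : 0 ≤ k ^ 2 / (2 * S ^ 3) * (lam * ‖∇ u x‖ ^ 2) := by positivity
      nlinarith
    · simp [image_eq_zero_of_notMem_tsupport hx]

/-- Local maximum principle on the unit scale. -/
theorem locmax_unit (hn : 3 ≤ n) (hlam : 0 < lam) (Lam : ℝ) (ha : 0 ≤ a) (b : ℝ) :
    ∃ C : ℝ, 0 < C ∧ ∀ (u m : (E n) → ℝ) (F : (E n) → E n) (k : ℝ),
      Sub lam Lam a b (ball 0 2) u m F → 0 ≤ k → (∀ x ∈ ball (0 : E n) 2, m x ≤ max (u x) 0 + k) →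
      ∀ x ∈ ball (0 : E n) 1,
        u x ≤ C * (√(∫ y in closedBall (0 : E n) (3 / 2), max (u y) 0 ^ 2) + k) := by
  obtain ⟨K, hK, hstep⟩ := moser_step hn hlam Lam (a := a + a ^ 2) (by positivity) b
  obtain ⟨C, hC, hit⟩ := moser_iter (n := n) (one_lt_chi hn) hK
  set V := (volume (closedBall (0 : E n) (3 / 2))).toReal with hV
  have hV0 : 0 ≤ V := ENNReal.toReal_nonneg
  refine ⟨√(C * (2 + 5 * V)), Real.sqrt_pos.2 (by positivity), fun u m F k h hk hm x hx => ?_⟩
  set I := ∫ y in closedBall (0 : E n) (3 / 2), max (u y) 0 ^ 2 with hI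
  have hI0 : 0 ≤ I := by positivity
  have main : ∀ k', k < k' → u x ≤ √(C * (2 + 5 * V)) * (√I + k') := by
    intro k' hk'
    have hk0 : 0 < k' := lt_of_le_of_lt hk hk'
    have h' := h.posPart isOpen_ball hlam.le ha hk0 fun x hx => by linarith [hm x hx]
    have hpos : ∀ x ∈ ball (0 : E n) 2, 0 < pp k' (u x) + k' := fun x _ => by
      linarith [pp_ge k' (u x), le_max_right (u x) 0]
    have h1 := hit _ h'.cm hpos (hstep _ _ h' hpos) x hx
    have hsub : closedBall (0 : E n) (3 / 2) ⊆ ball 0 2 := closedBall_subset_ball (by norm_num)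
    have cK := isCompact_closedBall (0 : E n) (3 / 2)
    have i1 : IntegrableOn (fun y => max (u y) 0 ^ 2) (closedBall (0 : E n) (3 / 2)) :=
      (((h.cu.continuousOn.mono hsub).sup continuousOn_const).pow 2).integrableOn_compact cK
    have h2 : ∫ y in closedBall (0 : E n) (3 / 2), (pp k' (u y) + k') ^ 2 ≤ 2 * I + 5 * k' ^ 2 * V := by
      have i2 : IntegrableOn (fun _ : E n => 5 * k' ^ 2) (closedBall (0 : E n) (3 / 2)) :=
        integrableOn_const cK.measure_lt_top.ne
      have h3 := setIntegral_mono_on (((h'.cm.mono hsub).pow 2).integrableOn_compact cK)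
        ((i1.const_mul 2).add i2) measurableSet_closedBall fun y _ => ?_
      · simp only [Pi.add_apply, Pi.pow_apply] at h3
        rwa [integral_add (i1.const_mul 2) i2, integral_const_mul, setIntegral_const, smul_eq_mul,
          measureReal_def, mul_comm _ (5 * k' ^ 2)] at h3
      · have h4 := pp_le hk0.le (u y)
        have h5 := pow_le_pow_left₀ (by linarith [pp_ge k' (u y), le_max_right (u y) 0] :
          0 ≤ pp k' (u y) + k') (by linarith : pp k' (u y) + k' ≤ max (u y) 0 + 3 / 2 * k') 2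
        simp only [Pi.add_apply, Pi.pow_apply]
        nlinarith [sq_nonneg (max (u y) 0 - 3 / 2 * k'), sq_nonneg k']
    have h6 : (pp k' (u x) + k') ^ 2 ≤ (√(C * (2 + 5 * V)) * (√I + k')) ^ 2 := by
      rw [mul_pow, Real.sq_sqrt (by positivity), mul_assoc]
      refine h1.trans (mul_le_mul_of_nonneg_left (h2.trans ?_) hC.le)
      have h7 : √I ^ 2 = I := Real.sq_sqrt hI0
      have h8 : 0 ≤ √I * k' := by positivity
      nlinarith [mul_nonneg hV0 hI0, mul_nonneg hV0 h8, sq_nonneg k']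
    have h9 := abs_le_of_sq_le_sq' h6 (by positivity)
    linarith [h9.2, pp_ge k' (u x), le_max_left (u x) 0]
  refine le_of_forall_pos_le_add fun ε hε => ?_
  have hs : 0 < √(C * (2 + 5 * V)) := Real.sqrt_pos.2 (by positivity)
  have := main (k + ε / √(C * (2 + 5 * V))) (lt_add_of_pos_right _ (div_pos hε hs))
  rw [← add_assoc, mul_add _ (√I + k), mul_div_cancel₀ _ hs.ne'] at this
  exact this

end

end Crest.Agent.NLib.Ell
end

-- ▼ part NLib/Ell/Growth

/-!
# The growth lemma (weak Harnack inequality in measure) on the unit scale (helper26)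
-/

set_option autoImplicit false
open MeasureTheory Metric Set Filter Topology InnerProductSpace
open scoped NNReal ENNReal RealInnerProductSpace Gradient ContDiff

namespace Crest.Agent.NLib.Ell

open Crest.Agent.R202.Moser

noncomputable section

variable {n : ℕ}

local notation "E" n => EuclideanSpace ℝ (Fin n)

/-- Poincaré inequality for functions vanishing on a set `Z`. -/
theorem poincare_zero {S Z : Set (E n)} (hS : IsOpen S) (hc : Convex ℝ S) (hSf : volume S ≠ ⊤)
    {f : (E n) → ℝ} (hf : ContDiffOn ℝ 1 f S) {d : ℝ} (hd0 : 0 ≤ d)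
    (hd : ∀ x ∈ S, ∀ y ∈ S, dist x y ≤ d) (hZ : MeasurableSet Z) (hZS : Z ⊆ S)
    (h0 : ∀ x ∈ Z, f x = 0) (i1 : IntegrableOn f S) (i2 : IntegrableOn (fun x => ‖∇ f x‖) S) :
    volume.real Z * ∫ x in S, |f x| ≤ d * (2 ^ n * volume.real S * ∫ x in S, ‖∇ f x‖) := by
  have key := R236.Poinc.poincare hS hc hf hd
  have e1 : volume Z * ∫⁻ y in S, ‖f y‖ₑ ≤ ∫⁻ y in S, ∫⁻ x in S, ‖f y - f x‖ₑ := by
    rw [← lintegral_const_mul' _ _ (ne_top_of_le_ne_top hSf (measure_mono hZS))]
    refine lintegral_mono fun y => ?_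
    calc volume Z * ‖f y‖ₑ = ∫⁻ x in Z, ‖f y - f x‖ₑ := by
          rw [setLIntegral_congr_fun hZ (g := fun _ => ‖f y‖ₑ) fun x hx => by simp [h0 x hx],
            setLIntegral_const, mul_comm]
      _ ≤ _ := lintegral_mono_set hZS
  have e2 : ∫⁻ y in S, ‖f y‖ₑ = ENNReal.ofReal (∫ x in S, |f x|) :=
    (ofReal_integral_norm_eq_lintegral_enorm i1).symm
  have e3 : ∫⁻ z in S, ‖fderiv ℝ f z‖ₑ = ENNReal.ofReal (∫ x in S, ‖∇ f x‖) := by
    rw [ofReal_integral_eq_lintegral_ofReal i2 (Eventually.of_forall fun x => norm_nonneg _)]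
    simp only [norm_gradient, ofReal_norm]
  have e4 := e1.trans key
  rw [e2, e3, ← ofReal_measureReal (ne_top_of_le_ne_top hSf (measure_mono hZS)),
    ← ofReal_measureReal hSf, ← ENNReal.ofReal_mul measureReal_nonneg,
    show (2 : ℝ≥0∞) ^ n = ENNReal.ofReal (2 ^ n) by
      rw [ENNReal.ofReal_pow (by norm_num)]; norm_num,
    ← ENNReal.ofReal_mul (by positivity), ← ENNReal.ofReal_mul (by positivity),
    ← ENNReal.ofReal_mul hd0] at e4
  exact (ENNReal.ofReal_le_ofReal_iff (by positivity)).1 e4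

/-- `(max s 0)²`, a `C¹` function. -/
def psq (s : ℝ) : ℝ := (s ^ 2 + sp 1 s) / 2

theorem psq_eq (s : ℝ) : psq s = max s 0 ^ 2 := by
  rw [psq, sp, Real.rpow_one]
  rcases le_total s 0 with h | h
  · rw [abs_of_nonpos h, max_eq_right h]; ring
  · rw [abs_of_nonneg h, max_eq_left h]; ring

theorem hasDerivAt_psq (s : ℝ) : HasDerivAt psq (2 * max s 0) s := by
  refine (((hasDerivAt_pow 2 s).add (hasDerivAt_sp zero_le_one s)).div_const 2).congr_deriv ?_
  rw [Real.rpow_one]
  rcases le_total s 0 with h | h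
  · rw [abs_of_nonpos h, max_eq_right h]; norm_num
  · rw [abs_of_nonneg h, max_eq_left h]; norm_num

theorem contDiff_psq : ContDiff ℝ 1 psq :=
  ((contDiff_id.pow 2).add (contDiff_sp zero_le_one)).div_const 2

/-- `L²` bound of the positive part of a function that is nonpositive on a set of measure `θ`. -/
theorem posPart_sq_le {U Z : Set (E n)} (hU : IsOpen U) {ρ θ : ℝ} (hρ : 0 < ρ) (hθ : 0 < θ)
    (hB : closedBall (0 : E n) ρ ⊆ U) {w : (E n) → ℝ} (hw : ContDiffOn ℝ 1 w U)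
    (hZ : MeasurableSet Z) (hZS : Z ⊆ ball 0 ρ) (hθZ : θ ≤ volume.real Z) (h0 : ∀ x ∈ Z, w x ≤ 0) :
    ∫ x in ball (0 : E n) ρ, max (w x) 0 ^ 2 ≤
      (4 * ρ * 2 ^ n * volume.real (ball (0 : E n) ρ) / θ) ^ 2 * ∫ x in ball (0 : E n) ρ, ‖∇ w x‖ ^ 2 := by
  have hsub : ball (0 : E n) ρ ⊆ U := ball_subset_closedBall.trans hB
  have io : ∀ {f : (E n) → ℝ}, ContinuousOn f U → IntegrableOn f (ball 0 ρ) := fun hf =>
    ((hf.mono hB).integrableOn_compact (isCompact_closedBall _ _)).mono_set ball_subset_closedBall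
  have cf : ContDiffOn ℝ 1 (fun x => psq (w x)) U := contDiff_psq.comp_contDiffOn hw
  have cg := continuousOn_gradient hU hw
  have cp : ContinuousOn (fun x => max (w x) 0) U := hw.continuousOn.sup continuousOn_const
  have key := poincare_zero isOpen_ball (convex_ball 0 ρ) measure_ball_lt_top.ne (cf.mono hsub)
    (d := 2 * ρ) (by positivity) (fun x hx y hy => by
      linarith [dist_triangle_right x y 0, mem_ball.1 hx, mem_ball.1 hy]) hZ hZS
    (fun x hx => by rw [psq_eq, max_eq_right (h0 x hx)]; norm_num) (io cf.continuousOn)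
    (io (continuousOn_gradient hU cf).norm)
  set V := volume.real (ball (0 : E n) ρ) with hV
  have hV0 : 0 < V := lt_of_lt_of_le hθ (hθZ.trans (measureReal_mono hZS measure_ball_lt_top.ne))
  set I := ∫ x in ball (0 : E n) ρ, max (w x) 0 ^ 2 with hI
  set J := ∫ x in ball (0 : E n) ρ, ‖∇ w x‖ ^ 2 with hJ
  have hI0 : 0 ≤ I := by positivity
  have e1 : ∫ x in ball (0 : E n) ρ, |psq (w x)| = I := by
    simp only [psq_eq, abs_pow, sq_abs, hI]
  set D := 4 * ρ * 2 ^ n * V / θ with hD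
  have hD0 : 0 < D := by positivity
  have e2 : ∫ x in ball (0 : E n) ρ, ‖∇ (fun x => psq (w x)) x‖ ≤ D⁻¹ * I + D * J := by
    have i1 : IntegrableOn (fun x => D⁻¹ * max (w x) 0 ^ 2) (ball 0 ρ) := (io (cp.pow 2)).const_mul _
    have i2 : IntegrableOn (fun x => D * ‖∇ w x‖ ^ 2) (ball 0 ρ) := (io (cg.norm.pow 2)).const_mul _
    rw [hI, hJ, ← integral_const_mul, ← integral_const_mul, ← integral_add i1 i2]
    refine setIntegral_mono_on (io (continuousOn_gradient hU cf).norm) (i1.add i2)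
      measurableSet_ball fun x hx => ?_
    rw [gradient_comp (diffAt hU hw (hsub hx)) (hasDerivAt_psq _), norm_smul, Real.norm_eq_abs,
      abs_of_nonneg (by positivity)]
    have h1 : D⁻¹ * max (w x) 0 ^ 2 + D * ‖∇ w x‖ ^ 2 - 2 * max (w x) 0 * ‖∇ w x‖ =
        D⁻¹ * (max (w x) 0 - D * ‖∇ w x‖) ^ 2 := by field_simp; ring
    have h2 : 0 ≤ D⁻¹ * (max (w x) 0 - D * ‖∇ w x‖) ^ 2 := by positivity
    linarith
  rw [e1] at key
  have e3 : θ * I ≤ 2 * ρ * (2 ^ n * V * (D⁻¹ * I + D * J)) :=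
    (mul_le_mul_of_nonneg_right hθZ hI0).trans (key.trans (by gcongr))
  have e4 : 2 * ρ * (2 ^ n * V * (D⁻¹ * I + D * J)) = θ / 2 * I + θ / 2 * (D ^ 2 * J) := by
    rw [hD]; field_simp; ring
  rw [e4] at e3
  nlinarith

variable {lam Lam a b : ℝ} {U : Set (E n)} {u m : (E n) → ℝ} {F : (E n) → E n}

theorem gradient_log (hU : IsOpen U) (hu : ContDiffOn ℝ 1 u U) {k : ℝ} (c : ℝ)
    (hpos : ∀ x ∈ U, 0 < u x + k) {x : E n} (hx : x ∈ U) :
    ∇ (fun x => c - Real.log (u x + k)) x = (-(u x + k)⁻¹) • ∇ u x :=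
  gradient_comp (H := fun s => c - Real.log (s + k)) (diffAt hU hu hx) (by
    simpa using (((hasDerivAt_id' (u x)).add_const k).log (hpos x hx).ne').const_sub c)

/-- The logarithmic weak inequality for a positive supersolution. -/
theorem Sup.weak_log (hU : IsOpen U) (ha : 0 ≤ a) (h : Sup lam Lam a b U u m F) {k : ℝ} (c : ℝ)
    (hpos : ∀ x ∈ U, 0 < u x + k) (hm : ∀ x ∈ U, m x ≤ u x + k) {φ : (E n) → ℝ} (hφ : Test U φ) :
    ∫ x, ⟪(-(u x + k)⁻¹) • F x, ∇ φ x⟫ ≤
      ∫ x, (b * ‖∇ (fun x => c - Real.log (u x + k)) x‖ + (a + a ^ 2) -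
        lam * ‖∇ (fun x => c - Real.log (u x + k)) x‖ ^ 2) * φ x := by
  have hu : ContDiffOn ℝ 1 u U := by simpa using h.cu.neg
  have cw : ContDiffOn ℝ 1 (fun x => c - Real.log (u x + k)) U :=
    contDiffOn_const.sub ((hu.add contDiffOn_const).log fun x hx => (hpos x hx).ne')
  have cH : ContinuousOn (fun s : ℝ => ((k - s) ^ 2)⁻¹) (Iio k) :=
    ((continuousOn_const.sub continuousOn_id).pow 2).inv₀ fun s hs =>
      pow_ne_zero 2 (sub_pos.2 hs).ne'
  have hS : ∀ x ∈ U, -u x ∈ Iio k := fun x hx => by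
    rw [mem_Iio]; linarith [hpos x hx]
  have key := Sub.weak_mul hU h (H := fun s => (k - s)⁻¹) (H' := fun s => ((k - s) ^ 2)⁻¹)
    isOpen_Iio hS (fun s hs => (((hasDerivAt_id' s).const_sub k).fun_inv
      (sub_pos.2 hs).ne').congr_deriv (by simp [div_eq_mul_inv]))
    cH (fun s hs => (inv_pos.2 (sub_pos.2 hs)).le) hφ
  have cg := continuousOn_gradient hU h.cu
  have cg' := (continuousOn_gradient hU cw).norm
  have c0 : ContinuousOn (fun x => (k - -u x)⁻¹) U :=
    (continuousOn_const.sub h.cu.continuousOn).inv₀ fun x hx => (sub_pos.2 (hS x hx)).ne'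
  refine le_trans (le_of_eq ?_) (key.trans (integral_mono (hφ.int_mul ((((continuousOn_const.mul
    cg.norm).add (continuousOn_const.mul h.cm)).mul c0).sub
    ((cH.comp h.cu.continuousOn hS).mul (h.cF.inner cg)))) (hφ.int_mul (((continuousOn_const.mul
    cg').add continuousOn_const).sub (continuousOn_const.mul (cg'.pow 2)))) fun x => ?_))
  · simp only [sub_neg_eq_add, add_comm k, smul_neg, neg_smul]
  · by_cases hx : x ∈ tsupport φ
    · have hx' := hφ.sub hx
      refine mul_le_mul_of_nonneg_right ?_ (hφ.nonneg x)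
      have hp := hpos x hx'
      have hl := h.low x hx'
      rw [gradient_log hU hu c hpos hx', norm_smul, norm_neg, norm_inv, Real.norm_eq_abs,
        abs_of_pos hp, sub_neg_eq_add, add_comm k]
      rw [gradient_neg, norm_neg] at hl ⊢
      set i := (u x + k)⁻¹ with hi
      have hi0 : 0 < i := inv_pos.2 hp
      have e0 : ((u x + k) ^ 2)⁻¹ = i ^ 2 := by rw [hi, inv_pow]
      have e1 : m x * i ≤ 1 := by
        rw [hi, ← div_eq_mul_inv, div_le_one hp]; exact hm x hx'
      have e2 : (m x * i) ^ 2 ≤ 1 := pow_le_one₀ (mul_nonneg (h.m0 x hx') hi0.le) e1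
      have e3 := mul_le_mul_of_nonneg_left hl (sq_nonneg i)
      have e4 := mul_le_mul_of_nonneg_left e1 ha
      have e5 := mul_le_mul_of_nonneg_left e2 (sq_nonneg a)
      rw [e0]
      nlinarith
    · simp [image_eq_zero_of_notMem_tsupport hx]

/-- Minus the logarithm of a positive supersolution is a subsolution. -/
theorem Sup.log (hU : IsOpen U) (hlam : 0 ≤ lam) (ha : 0 ≤ a) (h : Sup lam Lam a b U u m F)
    {k : ℝ} (c : ℝ) (hpos : ∀ x ∈ U, 0 < u x + k) (hm : ∀ x ∈ U, m x ≤ u x + k) :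
    Sub lam Lam (a + a ^ 2) b U (fun x => c - Real.log (u x + k)) (fun _ => 1)
      (fun x => (-(u x + k)⁻¹) • F x) := by
  have hu : ContDiffOn ℝ 1 u U := by simpa using h.cu.neg
  have hF : ContinuousOn F U := h.cF.neg.congr fun x _ => by simp
  have cw : ContDiffOn ℝ 1 (fun x => c - Real.log (u x + k)) U :=
    contDiffOn_const.sub ((hu.add contDiffOn_const).log fun x hx => (hpos x hx).ne')
  have e1 : ∀ x ∈ U, a * m x * (u x + k)⁻¹ ≤ a := fun x hx => by
    rw [mul_assoc]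
    refine mul_le_of_le_one_right ha ?_
    rw [← div_eq_mul_inv, div_le_one (hpos x hx)]; exact hm x hx
  have cg' := (continuousOn_gradient hU cw).norm
  refine ⟨cw, continuousOn_const, (((hu.continuousOn.add continuousOn_const).inv₀ fun x hx =>
    (hpos x hx).ne').neg).smul hF, fun _ _ => zero_le_one, fun x hx => ?_, fun x hx => ?_,
    fun φ hφ => ?_⟩
  · have hl := h.low x hx
    rw [gradient_neg, norm_neg, inner_neg_neg] at hl
    rw [gradient_log hU hu c hpos hx, norm_smul, inner_smul_left, inner_smul_right, conj_trivial,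
      Real.norm_eq_abs, mul_pow, sq_abs]
    have e2 := pow_le_pow_left₀ (mul_nonneg (mul_nonneg ha (h.m0 x hx)) (inv_pos.2 (hpos x hx)).le)
      ((e1 x hx).trans (by nlinarith [sq_nonneg a] : a ≤ a + a ^ 2)) 2
    have e3 := mul_le_mul_of_nonneg_left hl (sq_nonneg (u x + k)⁻¹)
    nlinarith
  · have hl := h.up x hx
    rw [gradient_neg, norm_neg, norm_neg] at hl
    rw [gradient_log hU hu c hpos hx, norm_smul, norm_smul, norm_neg, norm_inv, Real.norm_eq_abs,
      abs_of_pos (hpos x hx)]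
    have e3 := mul_le_mul_of_nonneg_left hl (inv_pos.2 (hpos x hx)).le
    nlinarith [e1 x hx, sq_nonneg a]
  · refine (h.weak_log hU ha c hpos hm hφ).trans (integral_mono (hφ.int_mul
      (((continuousOn_const.mul cg').add continuousOn_const).sub (continuousOn_const.mul (cg'.pow 2))))
      (hφ.int_mul ((continuousOn_const.mul cg').add continuousOn_const)) fun x => ?_)
    refine mul_le_mul_of_nonneg_right ?_ (hφ.nonneg x)
    have := mul_nonneg hlam (sq_nonneg ‖∇ (fun x => c - Real.log (u x + k)) x‖)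
    linarith

/-- The logarithmic energy estimate. -/
theorem Sup.log_energy (hU : IsOpen U) (hlam : 0 < lam) (ha : 0 ≤ a)
    (h : Sup lam Lam a b U u m F) {k : ℝ} (c : ℝ) (hpos : ∀ x ∈ U, 0 < u x + k)
    (hm : ∀ x ∈ U, m x ≤ u x + k) {η : (E n) → ℝ} (hη : Test U η) :
    ∫ x, ‖∇ (fun x => c - Real.log (u x + k)) x‖ ^ 2 * η x ^ 2 ≤
      2 * K0 lam Lam (a + a ^ 2) b / lam * ∫ x, (η x ^ 2 + ‖∇ η x‖ ^ 2) := by
  have h' := h.log hU hlam.le ha c hpos hm
  have key := h.weak_log hU ha c hpos hm hη.sq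
  have cg := (continuousOn_gradient hU h'.cu).norm
  have dη := hη.c1.differentiable (by norm_num)
  have z0 : ∀ x, x ∉ tsupport η → η x = 0 := fun x hx => image_eq_zero_of_notMem_tsupport hx
  have z1 : ∀ x, x ∉ tsupport η → ∇ η x = 0 := fun x hx => gradient_eq_zero_of_notMem hx
  have iY : Integrable fun x => η x ^ 2 + ‖∇ η x‖ ^ 2 :=
    integrable_of_on hη.cs.isCompact hη.sub ((hη.c1.continuous.pow 2).add
      ((continuous_gradient hη.c1).norm.pow 2)).continuousOn fun x hx => by simp [z0 x hx, z1 x hx]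
  have e1 := int_le_of_weak (hη.sq.int_inner h'.cF) (hη.sq.int_mul (((continuousOn_const.mul
    cg).add continuousOn_const).sub (continuousOn_const.mul (cg.pow 2))))
    ((hη.sq.int_mul (cg.pow 2)).const_mul (lam / 2)) (iY.const_mul (K0 lam Lam (a + a ^ 2) b))
    key fun x => ?_
  · rw [integral_const_mul, integral_const_mul] at e1
    simp only [Pi.pow_apply] at e1
    rw [div_mul_eq_mul_div, le_div_iff₀ hlam]
    linarith
  · by_cases hx : x ∈ tsupport η
    · have hx' := hη.sub hx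
      simp only [Pi.pow_apply, Pi.sub_apply, Pi.add_apply, Pi.mul_apply]
      rw [gradient_sq (dη x), inner_smul_right]
      set G := (-(u x + k)⁻¹) • F x
      set g := ‖∇ (fun x => c - Real.log (u x + k)) x‖
      have hJ : -((Lam * g + (a + a ^ 2) * 1) * ‖∇ η x‖) ≤ ⟪G, ∇ η x⟫ := by
        have h1 := abs_real_inner_le_norm G (∇ η x)
        have h2 := mul_le_mul_of_nonneg_right (h'.up x hx') (norm_nonneg (∇ η x))
        linarith [neg_abs_le ⟪G, ∇ η x⟫]
      have := cacc_pt (b := b) (I := lam * g ^ 2) hlam (by positivity : 0 ≤ a + a ^ 2) le_rfl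
        zero_le_one (hη.nonneg x) (by nlinarith [sq_nonneg (a + a ^ 2)]) hJ
      nlinarith
    · rw [gradient_sq (dη x)]
      simp [z0 x hx, z1 x hx]

theorem measurableSet_inter_ge {S : Set (E n)} (hS : IsOpen S) (hu : ContinuousOn u S) (t : ℝ) :
    MeasurableSet (S ∩ {x | t ≤ u x}) := by
  have := hS.measurableSet.diff (hu.isOpen_inter_preimage hS (isOpen_Iio (a := t))).measurableSet
  convert this using 1
  ext y
  exact ⟨fun h => ⟨h.1, fun h' => not_lt.2 h.2.out h'.2⟩,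
    fun h => ⟨h.1, (not_lt.1 fun h' : u y < t => h.2 ⟨h.1, h'⟩ : t ≤ u y)⟩⟩

/-- **Growth lemma** on the unit scale. -/
theorem growth_unit (hn : 3 ≤ n) (hlam : 0 < lam) (Lam : ℝ) (ha : 0 ≤ a) (b : ℝ) {θ : ℝ}
    (hθ : 0 < θ) : ∃ c : ℝ, 0 < c ∧ c ≤ 1 ∧ ∀ (u m : (E n) → ℝ) (F : (E n) → E n) (k t : ℝ),
      Sup lam Lam a b (ball 0 4) u m F → 0 ≤ k → (∀ x ∈ ball (0 : E n) 4, 0 ≤ u x) →
      (∀ x ∈ ball (0 : E n) 4, m x ≤ u x + k) →
      θ ≤ volume.real (ball (0 : E n) 2 ∩ {x | t ≤ u x}) →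
      ∀ x ∈ ball (0 : E n) 1, c * t ≤ u x + k := by
  obtain ⟨C, hC, hloc⟩ := locmax_unit hn hlam Lam (a := a + a ^ 2) (by positivity) b
  obtain ⟨C2, -, hcut⟩ := exists_cutoff (n := n)
  obtain ⟨η, hη1, hηc, hηs, hη1', hη0, -, -⟩ := hcut 2 3 (by norm_num) (by norm_num)
  have hη : Test (ball 0 4) η := ⟨hη1, hηc, hηs.trans (closedBall_subset_ball (by norm_num)), hη0⟩
  set L := C * (√((4 * 2 * 2 ^ n * volume.real (ball (0 : E n) 2) / θ) ^ 2 *
    (2 * K0 lam Lam (a + a ^ 2) b / lam * ∫ x, (η x ^ 2 + ‖∇ η x‖ ^ 2))) + 1) with hL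
  have hL0 : 0 ≤ L := by positivity
  refine ⟨Real.exp (-L), Real.exp_pos _, Real.exp_le_one_iff.2 (by linarith),
    fun u m F k t h hk hu0 hm hθ' x hx => ?_⟩
  have h14 : ball (0 : E n) 1 ⊆ ball 0 4 := ball_subset_ball (by norm_num)
  have h24 : ball (0 : E n) 2 ⊆ ball 0 4 := ball_subset_ball (by norm_num)
  rcases le_or_gt t 0 with ht | ht
  · nlinarith [Real.exp_pos (-L), hu0 x (h14 hx)]
  refine le_of_forall_pos_le_add fun ε hε => ?_
  rw [add_assoc]
  set k' := k + ε with hk'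
  have hpos : ∀ x ∈ ball (0 : E n) 4, 0 < u x + k' := fun x hx => by linarith [hu0 x hx]
  have hm' : ∀ x ∈ ball (0 : E n) 4, m x ≤ u x + k' := fun x hx => by linarith [hm x hx]
  have h' := h.log isOpen_ball hlam.le ha (Real.log t) hpos hm'
  have hu : ContDiffOn ℝ 1 u (ball 0 4) := by simpa using h.cu.neg
  have e1 := h.log_energy isOpen_ball hlam ha (Real.log t) hpos hm' hη
  have cg := (continuousOn_gradient isOpen_ball h'.cu).norm
  have hB : closedBall (0 : E n) 2 ⊆ ball 0 4 := closedBall_subset_ball (by norm_num)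
  have hZ : MeasurableSet (ball (0 : E n) 2 ∩ {x | t ≤ u x}) :=
    measurableSet_inter_ge isOpen_ball (hu.continuousOn.mono h24) t
  have e2 := posPart_sq_le isOpen_ball (ρ := 2) (by norm_num) hθ hB h'.cu hZ inter_subset_left hθ'
    fun y hy => sub_nonpos.2 (Real.log_le_log ht (by linarith [hy.2.out]))
  have e3 : ∫ x in ball (0 : E n) 2, ‖∇ (fun x => Real.log t - Real.log (u x + k')) x‖ ^ 2 ≤
      ∫ x, ‖∇ (fun x => Real.log t - Real.log (u x + k')) x‖ ^ 2 * η x ^ 2 := by
    refine le_trans (le_of_eq ?_) (setIntegral_le_integral (s := ball 0 2)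
      (hη.sq.int_mul (cg.pow 2)) (Eventually.of_forall fun x => by positivity))
    refine setIntegral_congr_fun measurableSet_ball fun y hy => ?_
    simp [hη1' y (ball_subset_closedBall hy)]
  have e4 := hloc _ _ _ 1 (h'.restrict h24) zero_le_one
    (fun y _ => by linarith [le_max_right (Real.log t - Real.log (u y + k')) 0]) x hx
  have e5 : ∫ y in closedBall (0 : E n) (3 / 2), max (Real.log t - Real.log (u y + k')) 0 ^ 2 ≤
      ∫ y in ball (0 : E n) 2, max (Real.log t - Real.log (u y + k')) 0 ^ 2 :=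
    setIntegral_mono_set ((((h'.cu.continuousOn.sup continuousOn_const).pow 2).mono
      hB).integrableOn_compact (isCompact_closedBall _ _) |>.mono_set ball_subset_closedBall)
      (Eventually.of_forall fun x => by positivity)
      (LE.le.eventuallyLE (closedBall_subset_ball (by norm_num)))
  have e6 : Real.log t - Real.log (u x + k') ≤ L := by
    refine e4.trans (mul_le_mul_of_nonneg_left (add_le_add_left (Real.sqrt_le_sqrt ?_) 1) hC.le)
    exact e5.trans (e2.trans (mul_le_mul_of_nonneg_left (e3.trans e1) (sq_nonneg _)))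
  rw [← Real.exp_log ht, ← Real.exp_log (hpos x (h14 hx)), ← Real.exp_add, Real.exp_le_exp]
  linarith

end

end Crest.Agent.NLib.Ell
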