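import Crest.Agent.R273.SchD_152
import Crest.Agent.R335.HDefs
import Crest.Agent.R202.Moser3

/-!
# Toolbox of row 346: frozen statements (helper26)

Vocabulary: `HO a M s f`, `C2A a M s u` (R273), `Ell lo hi A`, `P2 τ u = τ^{ij} ∂_ij u`, `D2` (R238),
`WG U u g` (weak gradient), `Test U φ`, `pd`, `gr`, `L2loc`, `L2locV` (R335; `pd i = pderiv i` by `rfl`).
Each `…Stmt` is proved in its own file `NLib/Ell/<Name>.lean` as `theorem <name> : <Name>Stmt`.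
-/

set_option autoImplicit false
open MeasureTheory Metric Set Filter Topology
open scoped NNReal ENNReal RealInnerProductSpace ContDiff

namespace Crest.Agent.NLib.Ell

open Crest.Agent.R238.Sch Crest.Agent.R273.SchA_152 Crest.Agent.R273.SchD_152
open Crest.Agent.R273.SchB_152 (P2)
open Crest.Agent.R238 (Ell)
open Crest.Agent.R335 (WG pd gr L2loc L2locV)

noncomputable section

/-- Euclidean space. -/
abbrev EE (n : ℕ) : Type := EuclideanSpace ℝ (Fin n)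

/-- Quantitative `C^{k,a}` bound on an open set `U`, by recursion on partial derivatives. -/
def CKA {n : ℕ} {F : Type} [NormedAddCommGroup F] [NormedSpace ℝ F] (a : ℝ) (U : Set (EE n)) :
    ℕ → ℝ → (EE n → F) → Prop
  | 0, M, f => HO a M U f
  | k + 1, M, f => HO a M U f ∧ DifferentiableOn ℝ f U ∧
      ∀ i, CKA a U k M fun x => fderiv ℝ f x (EuclideanSpace.single i 1)

/-- The Dirichlet space `D^{1,2}(ℝⁿ)`: `u ∈ L^{2n/(n-2)}` with weak gradient `g ∈ L²`. -/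
structure D1 {n : ℕ} (u : EE n → ℝ) (g : EE n → EE n) : Prop where
  wg : WG univ u g
  memg : MemLp g 2 volume
  memu : MemLp u (ENNReal.ofReal (2 * R202.Moser.chi n)) volume

/-! ### T6: elementary tools -/

/-- Omori-Yau points, local form (maximise `z + δ (1 - ‖y - x0‖² / ρ²)` on the closed ball). -/
def OYStmt : Prop := ∀ (n : ℕ) (z : EE n → ℝ) (x0 : EE n) (M δ ρ : ℝ), 0 < ρ →
  ContDiffOn ℝ 2 z (ball x0 (2 * ρ)) → (∀ y ∈ closedBall x0 ρ, z y ≤ M) → M - δ < z x0 →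
    ∃ x, ‖x - x0‖ < ρ ∧ z x0 ≤ z x ∧ ‖fderiv ℝ z x‖ ≤ 2 * δ / ρ ∧
      ∀ v : EE n, D2 z x v v ≤ 2 * δ / ρ ^ 2 * ‖v‖ ^ 2

/-- Interpolation on a ball. -/
def InterpStmt : Prop := ∀ (n : ℕ) (F : Type) [NormedAddCommGroup F] [NormedSpace ℝ F]
  (z : EE n → F) (x : EE n) (r M0 M2 : ℝ), 0 < r → ContDiffOn ℝ 2 z (ball x (2 * r)) →
  (∀ y ∈ closedBall x r, ‖z y‖ ≤ M0) → (∀ y ∈ closedBall x r, ‖fderiv ℝ (fderiv ℝ z) y‖ ≤ M2) →
  ‖fderiv ℝ z x‖ ≤ 2 * M0 / r + M2 * r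

/-- Smooth Arzelà-Ascoli. -/
def ArzelaStmt : Prop := ∀ (n : ℕ) (F : Type) [NormedAddCommGroup F] [NormedSpace ℝ F]
  [FiniteDimensional ℝ F] (f : ℕ → EE n → F), (∀ k, ContDiff ℝ ∞ (f k)) →
  (∀ (j : ℕ) (R : ℝ), ∃ C : ℝ, ∀ k, ∀ x ∈ ball (0 : EE n) R, ‖iteratedFDeriv ℝ j (f k) x‖ ≤ C) →
  ∃ (ψ : ℕ → ℕ) (g : EE n → F), StrictMono ψ ∧ ContDiff ℝ ∞ g ∧ ∀ j : ℕ,
    TendstoLocallyUniformly (fun k => iteratedFDeriv ℝ j (f (ψ k))) (iteratedFDeriv ℝ j g) atTop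

/-- `C^{2,a}` Arzelà-Ascoli (compactness of `C^{2,a} → C^2_loc`; the bound passes to the limit). -/
def Arzela2Stmt : Prop := ∀ (n : ℕ) (a M : ℝ), 0 < a → ∀ f : ℕ → EE n → ℝ,
  (∀ k, ContDiff ℝ 2 (f k)) → (∀ k, C2A a M univ (f k)) →
  ∃ (ψ : ℕ → ℕ) (g : EE n → ℝ), StrictMono ψ ∧ ContDiff ℝ 2 g ∧ C2A a M univ g ∧
    TendstoLocallyUniformly (fun k => f (ψ k)) g atTop ∧
    TendstoLocallyUniformly (fun k => fderiv ℝ (f (ψ k))) (fderiv ℝ g) atTop ∧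
    TendstoLocallyUniformly (fun k => D2 (f (ψ k))) (D2 g) atTop

/-- Hölder classes are closed under composition with smooth maps, with uniform constants
(sums, products, inverses, determinants are special cases: use `F = F₁ × F₂` or `ι → ℝ`). -/
def CompStmt : Prop := ∀ (n k : ℕ) (a M : ℝ), 0 < a → a ≤ 1 →
  ∀ (F G : Type) [NormedAddCommGroup F] [NormedSpace ℝ F] [FiniteDimensional ℝ F]
    [NormedAddCommGroup G] [NormedSpace ℝ G] (Φ : F → G) (W K : Set F), IsOpen W → IsCompact K →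
    K ⊆ W → ContDiffOn ℝ ∞ Φ W → ∃ C : ℝ, ∀ (U : Set (EE n)) (f : EE n → F), IsOpen U →
      (∀ x ∈ U, f x ∈ K) → CKA a U k M f → CKA a U k C fun x => Φ (f x)

/-- Dictionary between `CKA` and `iteratedFDeriv`. -/
def CKADictStmt : Prop := ∀ (n k : ℕ) (a : ℝ), 0 < a → a ≤ 1 → ∃ C : ℝ, 1 ≤ C ∧
  ∀ (F : Type) [NormedAddCommGroup F] [NormedSpace ℝ F] (U : Set (EE n)) (f : EE n → F) (M : ℝ),
    IsOpen U →
    (CKA a U k M f → ContDiffOn ℝ k f U ∧ ∀ j ≤ k, HO a (C * M) U (iteratedFDeriv ℝ j f)) ∧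
    (ContDiffOn ℝ k f U → (∀ j ≤ k, HO a M U (iteratedFDeriv ℝ j f)) → CKA a U k M f) ∧
    (Convex ℝ U → ContDiffOn ℝ (k + 1 : ℕ) f U →
      (∀ j ≤ k + 1, ∀ x ∈ U, ‖iteratedFDeriv ℝ j f x‖ ≤ M) → CKA a U k (C * M) f)

/-- Interior Schauder estimates of all orders with lower order terms (regularity and estimate). -/
def SchAllStmt : Prop := ∀ (n k : ℕ) (a lo hi M R : ℝ), 0 < a → a < 1 → 0 < lo → lo ≤ hi →
  0 < R → R ≤ 1 → ∃ C : ℝ, 0 < C ∧ ∀ (x0 : EE n) (τ : EE n → Matrix (Fin n) (Fin n) ℝ)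
    (β : Fin n → EE n → ℝ) (c u f : EE n → ℝ) (N S : ℝ),
    (∀ x ∈ ball x0 R, Ell lo hi (τ x)) → (∀ i j, CKA a (ball x0 R) k M fun x => τ x i j) →
    (∀ i, CKA a (ball x0 R) k M (β i)) → CKA a (ball x0 R) k M c → CKA a (ball x0 R) k N f →
    (∃ V, CKA a (ball x0 R) 2 V u) → (∀ x ∈ ball x0 R, |u x| ≤ S) →
    (∀ x ∈ ball x0 R, P2 τ u x + ∑ i, β i x * pd i u x + c x * u x = f x) →
    CKA a (ball x0 (R / 2)) (k + 2) (C * (N + S)) u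

/-! ### T2: the global linear problem `τ : D²z - z = f` -/

/-- Maximum principle on `ℝⁿ` (gives uniqueness, hence periodicity). -/
def MaxPStmt : Prop := ∀ (n : ℕ) (lo hi : ℝ), 0 ≤ lo →
  ∀ (τ : EE n → Matrix (Fin n) (Fin n) ℝ) (z : EE n → ℝ) (N : ℝ), (∀ x, Ell lo hi (τ x)) →
    ContDiff ℝ 2 z → (∃ B, ∀ x, |z x| ≤ B) → (∀ x, |P2 τ z x - z x| ≤ N) → ∀ x, |z x| ≤ N

/-- Global Schauder estimate. -/
def GSchStmt : Prop := ∀ (n : ℕ) (a lo hi M : ℝ), 0 < a → a < 1 → 0 < lo → lo ≤ hi →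
  ∃ C : ℝ, 0 < C ∧ ∀ (τ : EE n → Matrix (Fin n) (Fin n) ℝ) (z : EE n → ℝ) (N : ℝ),
    (∀ x, Ell lo hi (τ x)) → (∀ i j, HO a M univ fun x => τ x i j) → ContDiff ℝ 2 z →
    (∃ V, C2A a V univ z) → HO a N univ (fun x => P2 τ z x - z x) → C2A a (C * N) univ z

/-- Solvability for the Laplacian. -/
def Solve0Stmt : Prop := ∀ (n : ℕ) (a : ℝ), 0 < a → a < 1 → ∀ (f : EE n → ℝ) (N : ℝ),
  HO a N univ f → ∃ z : EE n → ℝ, ContDiff ℝ 2 z ∧ (∃ V, C2A a V univ z) ∧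
    ∀ x, P2 (fun _ => 1) z x - z x = f x

/-- Solvability for Hölder coefficients. -/
def SolveStmt : Prop := ∀ (n : ℕ) (a lo hi M : ℝ), 0 < a → a < 1 → 0 < lo → lo ≤ hi →
  ∀ (τ : EE n → Matrix (Fin n) (Fin n) ℝ) (f : EE n → ℝ) (N : ℝ),
    (∀ x, Ell lo hi (τ x)) → (∀ i j, HO a M univ fun x => τ x i j) → HO a N univ f →
    ∃ z : EE n → ℝ, ContDiff ℝ 2 z ∧ (∃ V, C2A a V univ z) ∧ ∀ x, P2 τ z x - z x = f x

/-! ### T3: regularity of weak solutions -/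




/-! ### T7: the Dirichlet space -/







end

end Crest.Agent.NLib.Ell
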